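import Vale.Agent.P200.Deg.LPP

/-!
P200: in a family of `n` forms of finite colength in `n` variables every subfamily has the expected
height: the polynomial ring is finite over the ring of the forms, which satisfies going down.
-/

noncomputable section

namespace Vale.Agent.P200.Growth

open MvPolynomial Deg

variable {K : Type*} [Field K] {n : ℕ}

/-- A prime containing the variables indexed by `S` has height at least the size of `S`. -/
lemma card_le_height (S : Finset (Fin n)) (P : Ideal (MvPolynomial (Fin n) K)) [P.IsPrime]
    (hS : ∀ i ∈ S, X i ∈ P) : (S.card : ℕ∞) ≤ P.height := by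
  classical
  let kill : Finset (Fin n) → MvPolynomial (Fin n) K →ₐ[K] MvPolynomial (Fin n) K :=
    fun T => aeval fun i => if i ∈ T then 0 else X i
  have hp : ∀ T, (RingHom.ker (kill T)).IsPrime := fun T => RingHom.ker_isPrime _
  have key : ∀ T : Finset (Fin n), (T.card : ℕ∞) ≤ (RingHom.ker (kill T)).height := by
    intro T
    induction T using Finset.induction_on with
    | empty => simp
    | insert j T hj ih =>
      have hc : (kill (insert j T)).comp (kill T) = kill (insert j T) := algHom_ext fun i => by
        by_cases hi : i ∈ T <;> simp [kill, hi]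
      have hlt : RingHom.ker (kill T) < RingHom.ker (kill (insert j T)) := by
        refine lt_of_le_of_ne (fun p hp => ?_) fun h => ?_
        · rw [RingHom.mem_ker] at hp ⊢
          rw [← hc, AlgHom.comp_apply, hp, map_zero]
        · have hm : (X j : MvPolynomial (Fin n) K) ∈ RingHom.ker (kill (insert j T)) := by
            simp [kill, RingHom.mem_ker]
          rw [← h] at hm
          simp [kill, RingHom.mem_ker, hj] at hm
      have := hp T
      have := hp (insert j T)
      rw [Finset.card_insert_of_notMem hj]
      push_cast
      exact (add_le_add ih le_rfl).trans (Ideal.height_add_one_le_of_lt_of_isPrime hlt)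
  refine (key S).trans (Ideal.height_mono fun p hp => ?_)
  have hcong : (Ideal.Quotient.mkₐ K P).comp (kill S) = Ideal.Quotient.mkₐ K P :=
    algHom_ext fun i => by
      by_cases hi : i ∈ S
      · simp [kill, hi, Ideal.Quotient.eq_zero_iff_mem.2 (hS i hi)]
      · simp [kill, hi]
  have : Ideal.Quotient.mkₐ K P p = 0 := by
    rw [← hcong, AlgHom.comp_apply, show kill S p = 0 from hp, map_zero]
  exact Ideal.Quotient.eq_zero_iff_mem.1 this

/-- Every subfamily of a family of finite colength has the expected height. -/
theorem card_le_height_of_subfamily {q : Fin n → MvPolynomial (Fin n) K} {a : Fin n → ℕ}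
    (ha : ∀ i, 1 ≤ a i) (hd : ∀ i, (q i).IsHomogeneous (a i)) (hfc : FiniteColength q)
    (S : Finset (Fin n)) (P : Ideal (MvPolynomial (Fin n) K)) [P.IsPrime]
    (hS : ∀ i ∈ S, q i ∈ P) : (S.card : ℕ∞) ≤ P.height := by
  classical
  obtain ⟨N, hN⟩ := hfc
  set A := Algebra.adjoin K (Set.range q)
  set M : Submodule A (MvPolynomial (Fin n) K) :=
    Submodule.span A ((fun s => monomial s (1 : K)) '' {s : Fin n →₀ ℕ | s.degree < N})
  have hpart : ∀ d, ∀ p : MvPolynomial (Fin n) K, p.IsHomogeneous d → p ∈ M := by
    intro d
    induction d using Nat.strong_induction_on with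
    | _ d ih =>
      intro p hp
      rcases Nat.lt_or_ge d N with hdN | hdN
      · rw [p.as_sum]
        refine Submodule.sum_mem _ fun s hs => ?_
        have hsd : s.degree = d := by
          by_contra h'
          exact (mem_support_iff.1 hs) (hp.coeff_eq_zero h')
        rw [show monomial s (coeff s p) = coeff s p • monomial s (1 : K) by
          rw [smul_monomial, smul_eq_mul, mul_one]]
        exact Submodule.smul_of_tower_mem _ _ (Submodule.subset_span ⟨s, by simp [hsd, hdN], rfl⟩)
      · have hpJ : p ∈ Ideal.span (Set.range q) := by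
          rw [p.as_sum]
          refine Ideal.sum_mem _ fun s hs => ?_
          have hsd : s.degree = d := by
            by_contra h'
            exact (mem_support_iff.1 hs) (hp.coeff_eq_zero h')
          obtain ⟨t, hts, htd⟩ := Finsupp.exists_le_degree_eq s N (hsd ▸ hdN)
          rw [show monomial s (coeff s p) = monomial (s - t) (coeff s p) * monomial t 1 by
            rw [monomial_mul, mul_one, tsub_add_cancel_of_le hts]]
          exact Ideal.mul_mem_left _ _ (hN _ (isHomogeneous_monomial _ htd))
        obtain ⟨f, rfl⟩ := Finsupp.mem_span_range_iff_exists_finsupp.1 hpJ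
        rw [← homogeneousComponent_eq_self hp, Finsupp.sum, map_sum]
        refine Submodule.sum_mem _ fun i _ => ?_
        rw [smul_eq_mul, component_mul_homog (hd i)]
        split_ifs with h
        · rw [mul_comm]
          exact M.smul_mem ⟨q i, Algebra.subset_adjoin ⟨i, rfl⟩⟩
            (ih (d - a i) (by have := ha i; omega) _ (homogeneousComponent_isHomogeneous _ _))
        · exact M.zero_mem
  have : Module.Finite A (MvPolynomial (Fin n) K) := by
    refine ⟨Submodule.fg_def.2 ⟨(fun s => monomial s (1 : K)) '' {s : Fin n →₀ ℕ | s.degree < N},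
      Set.Finite.image _ ?_, eq_top_iff.2 fun p _ => ?_⟩⟩
    · exact Finsupp.finite_of_degree_le N |>.subset fun s (hs : s.degree < N) => le_of_lt hs
    · rw [← sum_homogeneousComponent (φ := p)]
      exact Submodule.sum_mem _ fun d _ => hpart d _ (homogeneousComponent_isHomogeneous _ _)
  have hint : Algebra.IsIntegral A (MvPolynomial (Fin n) K) := Algebra.IsIntegral.of_finite A _
  have htr : Algebra.trdeg K (MvPolynomial (Fin n) K) = n := by
    rw [MvPolynomial.trdeg_of_isDomain]; simp
  have hind : AlgebraicIndependent K q :=
    (Algebra.IsAlgebraic.isTranscendenceBasis_of_lift_le_trdeg_of_finite K q (by simp [htr])).1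
  let e : MvPolynomial (Fin n) K ≃ₐ[K] A := hind.aevalEquiv
  have : IsIntegrallyClosed A := IsIntegrallyClosed.of_equiv e.toRingEquiv
  have : IsNoetherianRing A := isNoetherianRing_of_ringEquiv _ e.toRingEquiv
  have he : ∀ i, ((e (X i) : A) : MvPolynomial (Fin n) K) = q i := fun i =>
    (hind.algebraMap_aevalEquiv (X i)).trans (aeval_X q i)
  set p := P.under A
  have : P.LiesOver p := ⟨rfl⟩
  have hp : (S.card : ℕ∞) ≤ p.height := by
    have h1 := card_le_height S (p.comap (e.toRingEquiv : MvPolynomial (Fin n) K →+* A))
      fun i hi => show ((e (X i) : A) : MvPolynomial (Fin n) K) ∈ P from (he i).symm ▸ hS i hi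
    exact h1.trans_eq (RingEquiv.height_comap e.toRingEquiv p)
  exact hp.trans ((Ideal.height_eq_height_add_of_liesOver_of_hasGoingDown p P).symm ▸ le_self_add)

end Vale.Agent.P200.Growth
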