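import Vale.Agent.P200.Quint.Regular
import Vale.Agent.P200.Growth.Height

/-!
P200: Hilbert functions of complete intersections, the pairing into the socle and linkage.
-/

noncomputable section

namespace Vale.Agent.P200.Growth

open MvPolynomial Module Finset Deg Quint

variable {K : Type*} [Field K] {n : ℕ}

lemma piece_succ_full {J : Ideal (MvPolynomial (Fin n) K)} {d : ℕ}
    (h : part K n d ≤ J.restrictScalars K) : part K n (d + 1) ≤ J.restrictScalars K := by
  rw [part_eq_span_monomials]
  refine Submodule.span_le.2 ?_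
  rintro _ ⟨s, hs, rfl⟩
  obtain ⟨i, hi⟩ : ∃ i, s i ≠ 0 := by
    by_contra hc
    simp only [not_exists, not_not] at hc
    have : s = 0 := Finsupp.ext hc
    simp [this] at hs
  have hle : Finsupp.single i 1 ≤ s := Finsupp.single_le_iff.2 (Nat.one_le_iff_ne_zero.2 hi)
  have hdeg : (s - Finsupp.single i 1).degree = d := by
    have := congrArg Finsupp.degree (tsub_add_cancel_of_le hle)
    rw [map_add, Finsupp.degree_single] at this
    have hs' : s.degree = d + 1 := hs
    omega
  show monomial s (1 : K) ∈ J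
  rw [show s = (s - Finsupp.single i 1) + Finsupp.single i 1 from (tsub_add_cancel_of_le hle).symm,
    monomial_add_single, pow_one]
  exact J.mul_mem_right _ (h (isHomogeneous_monomial _ hdeg))

/-- The forms multiplying every member of `U` into `J`. -/
def colonSpace (J : Ideal (MvPolynomial (Fin n) K)) (U : Submodule K (MvPolynomial (Fin n) K)) :
    Ideal (MvPolynomial (Fin n) K) where
  carrier := {p | ∀ u ∈ U, p * u ∈ J}
  add_mem' ha hb u hu := by rw [add_mul]; exact add_mem (ha u hu) (hb u hu)
  zero_mem' u _ := by simp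
  smul_mem' c x hx u hu := by rw [smul_eq_mul, mul_assoc]; exact J.mul_mem_left _ (hx u hu)

lemma homog_colonSpace {J : Ideal (MvPolynomial (Fin n) K)} (hJ : Homog J)
    {U : Submodule K (MvPolynomial (Fin n) K)} {f : ℕ} (hU : U ≤ part K n f) :
    Homog (colonSpace J U) := by
  intro p hp d u hu
  have h := hJ _ (hp u hu) (d + f)
  rwa [component_mul_homog (hU hu), if_pos (by omega), Nat.add_sub_cancel] at h

/-- The Hilbert function of a prefix, step by step. -/
lemma hilb_step {k : ℕ} {q : Fin k → MvPolynomial (Fin n) K} {a : Fin k → ℕ}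
    (hd : ∀ i, (q i).IsHomogeneous (a i)) (hq : Regular q) (i : Fin k) :
    (∀ d, hilb (pre q ((i : ℕ) + 1)) (d + a i) + hilb (pre q i) d = hilb (pre q i) (d + a i)) ∧
      ∀ d < a i, hilb (pre q ((i : ℕ) + 1)) d = hilb (pre q i) d := by
  refine ⟨fun d => ?_, fun d hd2 => ?_⟩
  · set J := pre q i
    set J' := pre q ((i : ℕ) + 1)
    have hJ' : J' = J ⊔ Ideal.span {q i} := pre_succ q i
    let ψ : (piece J (d + a i)) × (part K n d) →ₗ[K] MvPolynomial (Fin n) K :=
      (piece J (d + a i)).subtype.coprod ((LinearMap.mulLeft K (q i)).comp (part K n d).subtype)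
    have hψ : ∀ u g, ψ (u, g) = (u : MvPolynomial (Fin n) K) + q i * g := fun u g => rfl
    have hrange : LinearMap.range ψ = piece J' (d + a i) := by
      refine le_antisymm ?_ fun p hp => ?_
      · rintro _ ⟨⟨⟨u, hu⟩, ⟨g, hg⟩⟩, rfl⟩
        rw [hψ]
        refine mem_piece.2 ⟨?_, (mem_piece.1 hu).2.add ((add_comm (a i) d) ▸ (hd i).mul hg)⟩
        rw [hJ']
        exact Submodule.add_mem_sup (mem_piece.1 hu).1
          (Ideal.mem_span_singleton'.2 ⟨g, mul_comm _ _⟩)
      · obtain ⟨hpJ, hph⟩ := mem_piece.1 hp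
        rw [hJ'] at hpJ
        obtain ⟨u, hu, w, hw, he⟩ := Submodule.mem_sup.1 hpJ
        obtain ⟨g, rfl⟩ := Ideal.mem_span_singleton'.1 hw
        refine ⟨(⟨homogeneousComponent (d + a i) u, mem_piece.2 ⟨homog_pre hd _ u hu _,
          homogeneousComponent_isHomogeneous _ _⟩⟩,
          ⟨homogeneousComponent d g, homogeneousComponent_isHomogeneous _ _⟩), ?_⟩
        rw [hψ, ← homogeneousComponent_eq_self hph, ← he, map_add,
          component_mul_homog (hd i) g (d + a i), if_pos (by omega), Nat.add_sub_cancel, mul_comm]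
    have hker : finrank K (LinearMap.ker ψ) = finrank K (piece J d) := by
      have hmem : ∀ g ∈ piece J d, -(q i * g) ∈ piece J (d + a i) := fun g hg =>
        Submodule.neg_mem _ (mem_piece.2 ⟨J.mul_mem_left _ (mem_piece.1 hg).1,
          (add_comm (a i) d) ▸ (hd i).mul (mem_piece.1 hg).2⟩)
      refine (LinearEquiv.ofBijective ({
        toFun := fun g => ⟨(⟨-(q i * g.1), hmem _ g.2⟩, ⟨g.1, (mem_piece.1 g.2).2⟩),
          LinearMap.mem_ker.2 (by rw [hψ]; simp)⟩
        map_add' := fun a b => by
          refine Subtype.ext (Prod.ext (Subtype.ext ?_) (Subtype.ext ?_)) <;>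
            simp [mul_add] <;> ring
        map_smul' := fun c a => by
          refine Subtype.ext (Prod.ext (Subtype.ext ?_) (Subtype.ext ?_)) <;> simp } :
          piece J d →ₗ[K] LinearMap.ker ψ) ⟨fun a b h => ?_, fun z => ?_⟩).finrank_eq.symm
      · exact Subtype.ext (congrArg (fun z => (z.1.2 : MvPolynomial (Fin n) K)) h)
      · obtain ⟨⟨⟨u, hu⟩, ⟨g, hg⟩⟩, hz⟩ := z
        have h0 : u + q i * g = 0 := by simpa [hψ] using LinearMap.mem_ker.1 hz
        have hgJ : g ∈ J := hq i g (by
          rw [eq_neg_of_add_eq_zero_right h0]; exact neg_mem (mem_piece.1 hu).1)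
        refine ⟨⟨g, mem_piece.2 ⟨hgJ, hg⟩⟩, Subtype.ext (Prod.ext (Subtype.ext ?_) rfl)⟩
        exact (eq_neg_of_add_eq_zero_left h0).symm
    have h := LinearMap.finrank_range_add_finrank_ker ψ
    rw [hrange, hker, Module.finrank_prod] at h
    have a1 := hilb_add J (d + a i)
    have a2 := hilb_add J' (d + a i)
    have a3 := hilb_add J d
    omega
  · have hp : piece (pre q ((i : ℕ) + 1)) d = piece (pre q i) d := by
      refine le_antisymm (fun p hp => ?_) (inf_le_inf_right _ (Ideal.span_mono
        (Set.image_mono fun j (hj : (j : ℕ) < i) => Nat.lt_succ_of_lt hj)))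
      obtain ⟨h1, h2⟩ := mem_piece.1 hp
      rw [pre_succ] at h1
      obtain ⟨u, hu, w, hw, he⟩ := Submodule.mem_sup.1 h1
      obtain ⟨g, rfl⟩ := Ideal.mem_span_singleton'.1 hw
      refine mem_piece.2 ⟨?_, h2⟩
      rw [← homogeneousComponent_eq_self h2, ← he, map_add, component_mul_homog (hd i),
        if_neg (by omega), add_zero]
      exact homog_pre hd _ u hu d
    rw [hilb, hilb, hp]

variable [IsAlgClosed K]

/-- The pairing into the socle is perfect. -/
lemma nondeg {q : Fin n → MvPolynomial (Fin n) K} {a : Fin n → ℕ} (ha : ∀ i, 1 ≤ a i)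
    (hd : ∀ i, (q i).IsHomogeneous (a i)) (hT : Tall q) :
    ∀ f e, e + f = ∑ i, (a i - 1) → ∀ x : MvPolynomial (Fin n) K, x.IsHomogeneous e →
      (∀ v ∈ part K n f, x * v ∈ pre q n) → x ∈ pre q n := by
  intro f
  induction f with
  | zero =>
    intro e _ x _ hv
    simpa using hv 1 (isHomogeneous_one _ _)
  | succ f ih =>
    intro e he x hx hv
    rw [pre_all]
    refine socle n q a ha hd hT e (by omega) x hx fun i => ?_
    rw [← pre_all]
    refine ih (e + 1) (by omega) _ (add_comm 1 e ▸ (isHomogeneous_X K i).mul hx) fun v hv' => ?_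
    rw [mul_comm (X i) x, mul_assoc]
    exact hv _ (add_comm 1 f ▸ (isHomogeneous_X K i).mul hv' : (X i * v).IsHomogeneous (f + 1))

/-- Ranks across the pairing. -/
lemma pair {q : Fin n → MvPolynomial (Fin n) K} {s : ℕ} (h5 : hilb (pre q n) s = 1)
    {e f : ℕ} (hef : e + f = s)
    (U U0 V V0 : Submodule K (MvPolynomial (Fin n) K)) (hU : U ≤ part K n e) (hV : V ≤ part K n f)
    [Module.Finite K U0] (hV0 : V0 ≤ V) (h0 : ∀ u ∈ U, ∀ v ∈ V0, u * v ∈ pre q n)
    (hnd : ∀ u ∈ U, (∀ v ∈ V, u * v ∈ pre q n) → u ∈ U0) :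
    finrank K U + finrank K V0 ≤ finrank K V + finrank K U0 := by
  have hUf : Module.Finite K U := Submodule.finiteDimensional_of_le hU
  have hVf : Module.Finite K V := Submodule.finiteDimensional_of_le hV
  set P := piece (pre q n) s
  have hP : hilb (pre q n) s + finrank K P = finrank K (part K n s) := hilb_add (pre q n) s
  rw [h5] at hP
  obtain ⟨z, hz5, hzP⟩ : ∃ z ∈ part K n s, z ∉ P := by
    by_contra hc
    simp only [not_exists, not_and, not_not] at hc
    have := Submodule.finrank_mono (R := K) (s := part K n s) (t := P) hc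
    omega
  obtain ⟨ψ, hψz, hψP⟩ := P.exists_dual_map_eq_bot_of_notMem hzP inferInstance
  have hψ0 : ∀ w ∈ P, ψ w = 0 := fun w hw => by
    simpa [hψP] using Submodule.mem_map_of_mem (f := ψ) hw
  have hψiff : ∀ w ∈ part K n s, ψ w = 0 → w ∈ pre q n := by
    intro w hw h
    have hsup : P ⊔ Submodule.span K {z} = part K n s := by
      refine Submodule.eq_of_le_of_finrank_le (sup_le inf_le_right
        (Submodule.span_le.2 (by simpa using hz5))) ?_
      have hlt : P < P ⊔ Submodule.span K {z} :=
        lt_of_le_of_ne le_sup_left fun e => hzP (e ▸ Submodule.mem_sup_right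
          (Submodule.mem_span_singleton_self z))
      have : Module.Finite K ↥(P ⊔ Submodule.span K {z}) := Submodule.finiteDimensional_of_le
        (sup_le inf_le_right (Submodule.span_le.2 (by simpa using hz5)))
      have := Submodule.finrank_lt_finrank_of_lt hlt
      omega
    rw [← hsup] at hw
    obtain ⟨j, hj, y, hy, rfl⟩ := Submodule.mem_sup.1 hw
    obtain ⟨c, rfl⟩ := Submodule.mem_span_singleton.1 hy
    rw [map_add, hψ0 j hj, zero_add, map_smul, smul_eq_mul, mul_eq_zero] at h
    rw [h.resolve_right hψz, zero_smul, add_zero]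
    exact (mem_piece.1 hj).1
  let T : U →ₗ[K] Module.Dual K V :=
    (((LinearMap.mul K (MvPolynomial (Fin n) K)).compr₂ ψ).compl₁₂ U.subtype V.subtype)
  have hTa : ∀ u v, T u v = ψ (u.1 * v.1) := fun u v => rfl
  have hker : finrank K (LinearMap.ker T) ≤ finrank K U0 := by
    rw [← Submodule.finrank_map_subtype_eq]
    refine Submodule.finrank_mono ?_
    rintro _ ⟨u, hu, rfl⟩
    refine hnd _ u.2 fun v hv => hψiff _ ?_ ?_
    · have h := (hU u.2).mul (hV hv)
      rwa [hef] at h
    · exact (hTa u ⟨v, hv⟩).symm.trans (by rw [LinearMap.mem_ker.1 hu]; rfl)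
  have hrange : LinearMap.range T ≤ (V0.comap V.subtype).dualAnnihilator := by
    rintro _ ⟨u, rfl⟩
    rw [Submodule.mem_dualAnnihilator]
    intro v hv
    rw [hTa]
    have h := (hU u.2).mul (hV v.2)
    rw [hef] at h
    exact hψ0 _ (mem_piece.2 ⟨h0 _ u.2 _ hv, h⟩)
  have h1 := Submodule.finrank_mono hrange
  have h2 := Subspace.finrank_add_finrank_dualAnnihilator_eq (V0.comap V.subtype)
  rw [(Submodule.comapSubtypeEquivOfLe hV0).finrank_eq] at h2
  have h3 := LinearMap.finrank_range_add_finrank_ker T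
  omega

end Vale.Agent.P200.Growth
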