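import Vale.Agent.P200.Box.Basic

/-!
P200: two counting facts on slices of a box at the top degree of its first coordinates.
-/

namespace Vale.Agent.P200.Growth

open Finset

variable {n : ℕ} {cap : Fin (n + 1) → ℕ} {A : ℕ}

lemma exists_def {d : ℕ} {x : Fin (n + 1) → ℕ} (hA : ∑ i : Fin n, cap i.castSucc = A)
    (hx : x ∈ Box.sl cap 0 d) (hlt : d < A + x (Fin.last n)) :
    ∃ j, j ≠ Fin.last n ∧ x j < cap j := by
  by_contra hc
  simp only [not_exists, not_and, not_lt] at hc
  obtain ⟨h1, h2⟩ := Box.mem_sl.1 hx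
  rw [Fin.sum_univ_castSucc] at h2
  have := sum_le_sum (s := univ) fun i _ => hc (Fin.castSucc i) (Fin.castSucc_lt_last i).ne
  omega

/-- A set whose lower part sits one step below all of it is a chain. -/
theorem chain {M U : Finset (Fin (n + 1) → ℕ)} (hA : ∑ i : Fin n, cap i.castSucc = A + 2)
    (hlast : A + 1 ≤ cap (Fin.last n)) (hM : M ⊆ Box.sl cap 0 (A + 1)) (hU : U ⊆ Box.sl cap 0 A)
    (hUM : ∀ y ∈ U, ∀ i, y i < cap i → Box.up y i ∈ M) (hne : U.Nonempty)
    (hcard : M.card ≤ U.card + 1) :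
    U.card < M.card ∧ ∃ j, j ≠ Fin.last n ∧ M.card ≤ cap j := by
  classical
  set img := U.image fun y => Box.up y (Fin.last n)
  have hcL : ∀ y ∈ U, y (Fin.last n) < cap (Fin.last n) := fun y hy => by
    have := (Box.mem_sl.1 (hU hy)).2
    have := single_le_sum (f := y) (fun _ _ => Nat.zero_le _) (mem_univ (Fin.last n))
    omega
  have himg : img ⊆ M := image_subset_iff.2 fun y hy => hUM y hy (Fin.last n) (hcL y hy)
  have hic : img.card = U.card := card_image_of_injOn fun x _ y _ e => by
    rw [← Box.down_up x (Fin.last n), show Box.up x (Fin.last n) = Box.up y (Fin.last n) from e, Box.down_up]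
  have hrest : (M \ img).card ≤ 1 := by rw [card_sdiff_of_subset himg]; omega
  have claim : ∀ k, ∀ x ∈ img, x (Fin.last n) = k → ∃ j, j ≠ (Fin.last n) ∧ x j < cap j ∧
      (∀ l, l ≠ (Fin.last n) → l ≠ j → x l = cap l) ∧
      ∃ z ∈ M \ img, z j < cap j ∧ ∀ l, l ≠ (Fin.last n) → l ≠ j → z l = cap l := by
    intro k
    induction k using Nat.strong_induction_on with
    | _ k ih =>
      intro x hx hxk
      obtain ⟨y, hy, rfl⟩ := mem_image.1 hx
      have hyk : y (Fin.last n) + 1 = k := by rw [← hxk]; simp [Box.up]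
      have hoff : ∀ l, l ≠ (Fin.last n) → Box.up y (Fin.last n) l = y l := fun l hl => by simp [Box.up, hl]
      have hchild : ∀ j, j ≠ (Fin.last n) → y j < cap j →
          Box.up y j ∈ M ∧ Box.up y j (Fin.last n) = y (Fin.last n) ∧ (∀ l, l ≠ j → Box.up y j l = y l) := fun j hj hjc =>
        ⟨hUM y hy j hjc, by simp [Box.up, Ne.symm hj], fun l hl => by simp [Box.up, hl]⟩
      -- a child in the image pins the deficient place
      have hcase : ∀ j, j ≠ (Fin.last n) → y j < cap j → Box.up y j ∈ img → ∀ l, l ≠ (Fin.last n) → l ≠ j → y l = cap l := by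
        intro j hj hjc hin l hl hlj
        by_contra hlc
        have hlc' : y l < cap l := lt_of_le_of_ne ((Box.mem_sl.1 (hU hy)).1 l) hlc
        obtain ⟨j', hj'L, hj'c, hj'o, z, hz, hzc, hzo⟩ :=
          ih (y (Fin.last n)) (by omega) _ hin (hchild j hj hjc).2.1
        obtain rfl : j' = l := by
          by_contra hne'
          have := hj'o l hl (Ne.symm hne')
          rw [(hchild j hj hjc).2.2 l hlj] at this
          omega
        obtain ⟨hvM, hvL, hvo⟩ := hchild j' hl hlc'
        by_cases hvi : Box.up y j' ∈ img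
        · obtain ⟨j'', -, -, hj''o, z', hz', hz'c, -⟩ := ih (y (Fin.last n)) (by omega) _ hvi hvL
          have hj'' : j'' = j := by
            by_contra hne'
            have := hj''o j hj (Ne.symm hne')
            rw [hvo j (Ne.symm hlj)] at this
            omega
          subst hj''
          rw [card_le_one.1 hrest z' hz' z hz] at hz'c
          have := hzo j'' hj (Ne.symm hlj)
          omega
        · have he := card_le_one.1 hrest (Box.up y j') (mem_sdiff.2 ⟨hvM, hvi⟩) z hz
          have := hzo j hj (Ne.symm hlj)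
          rw [← he, hvo j (Ne.symm hlj)] at this
          omega
      obtain ⟨j, hj, hjc⟩ := exists_def hA (hU hy) (show A < A + 2 + y (Fin.last n) by omega)
      obtain ⟨hwM, hwL, hwo⟩ := hchild j hj hjc
      by_cases hwi : Box.up y j ∈ img
      · have huniq := hcase j hj hjc hwi
        obtain ⟨j', hj'L, hj'c, -, z, hz, hzc, hzo⟩ := ih (y (Fin.last n)) (by omega) _ hwi hwL
        obtain rfl : j' = j := by
          by_contra hne'
          rw [hwo j' hne', huniq j' hj'L hne'] at hj'c
          omega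
        exact ⟨j', hj, (hoff j' hj).symm ▸ hjc, fun l hl hlj => (hoff l hl).trans (huniq l hl hlj),
          z, hz, hzc, hzo⟩
      · have huniq : ∀ l, l ≠ (Fin.last n) → l ≠ j → y l = cap l := fun l hl hlj => by
          by_contra hlc
          have hlc' : y l < cap l := lt_of_le_of_ne ((Box.mem_sl.1 (hU hy)).1 l) hlc
          obtain ⟨hvM, -, hvo⟩ := hchild l hl hlc'
          have hvi : Box.up y l ∉ img := fun hvi => by
            have := hcase l hl hlc' hvi j hj (Ne.symm hlj)
            omega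
          have he := congrFun (card_le_one.1 hrest (Box.up y j) (mem_sdiff.2 ⟨hwM, hwi⟩)
            (Box.up y l) (mem_sdiff.2 ⟨hvM, hvi⟩)) j
          rw [hvo j (Ne.symm hlj)] at he
          simp [Box.up] at he
        refine ⟨j, hj, (hoff j hj).symm ▸ hjc, fun l hl hlj => (hoff l hl).trans (huniq l hl hlj),
          Box.up y j, mem_sdiff.2 ⟨hwM, hwi⟩, ?_, fun l hl hlj => (hwo l hlj).trans (huniq l hl hlj)⟩
        obtain ⟨l, hl, hlc⟩ := exists_def hA (hM hwM) (show A + 1 < A + 2 + Box.up y j (Fin.last n) by omega)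
        rcases eq_or_ne l j with rfl | hlj
        · exact hlc
        · rw [hwo l hlj, huniq l hl hlj] at hlc; omega
  obtain ⟨y0, hy0⟩ := hne
  obtain ⟨j, hj, -, -, z, hz, hzc, hzo⟩ := claim _ _ (mem_image_of_mem _ hy0) rfl
  refine ⟨?_, j, hj, ?_⟩
  · have : img.card < M.card := card_lt_card ⟨himg, fun h => (mem_sdiff.1 hz).2 (h (mem_sdiff.1 hz).1)⟩
    omega
  have hshape : ∀ x ∈ M, x j < cap j ∧ ∀ l, l ≠ (Fin.last n) → l ≠ j → x l = cap l := by
    intro x hx
    by_cases hxi : x ∈ img
    · obtain ⟨j', hj', hj'c, hj'o, z', hz', hz'c, -⟩ := claim _ x hxi rfl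
      obtain rfl : j' = j := by
        by_contra hne'
        rw [card_le_one.1 hrest z' hz' z hz, hzo j' hj' hne'] at hz'c
        omega
      exact ⟨hj'c, hj'o⟩
    · rw [card_le_one.1 hrest x (mem_sdiff.2 ⟨hx, hxi⟩) z hz]
      exact ⟨hzc, hzo⟩
  rw [← card_range (cap j)]
  refine card_le_card_of_injOn (fun x => x j) (fun x hx => mem_range.2 (hshape x hx).1)
    fun x hx x' hx' e => funext fun l => ?_
  have key : ∀ l, l ≠ (Fin.last n) → x l = x' l := fun l hl => by
    rcases eq_or_ne l j with rfl | hlj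
    · exact e
    · rw [(hshape x hx).2 l hl hlj, (hshape x' hx').2 l hl hlj]
  rcases eq_or_ne l (Fin.last n) with rfl | hl
  · have h1 := (Box.mem_sl.1 (hM hx)).2
    have h2 := (Box.mem_sl.1 (hM hx')).2
    rw [Fin.sum_univ_castSucc] at h1 h2
    have : ∑ i : Fin n, x i.castSucc = ∑ i : Fin n, x' i.castSucc :=
      sum_congr rfl fun i _ => key _ (Fin.castSucc_lt_last i).ne
    omega
  · exact key l hl

/-- In the slice at the top degree a set with a shadow smaller than itself is everything. -/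
theorem eq_slice_of_small_shadow (hA : ∑ i : Fin n, cap i.castSucc = A + 1)
    (hlast : A + 1 ≤ cap (Fin.last n)) {T : Finset (Fin (n + 1) → ℕ)}
    (hT : T ⊆ Box.sl cap 0 (A + 1)) (hs : (Box.shadow T).card < T.card) :
    T = Box.sl cap 0 (A + 1) := by
  classical
  set img := (T.filter fun x => 0 < x (Fin.last n)).image fun x => Box.down x (Fin.last n)
  have himg : img ⊆ Box.shadow T := image_subset_iff.2 fun x hx => Box.mem_shadow.2
    ⟨(Fin.last n), by rw [Box.up_down (mem_filter.1 hx).2]; exact (mem_filter.1 hx).1⟩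
  have hic : img.card = (T.filter fun x => 0 < x (Fin.last n)).card := card_image_of_injOn fun x hx y hy e => by
    rw [← Box.up_down (mem_filter.1 hx).2, show Box.down x (Fin.last n) = Box.down y (Fin.last n) from e,
      Box.up_down (mem_filter.1 hy).2]
  have htop : ∀ x ∈ Box.sl cap 0 (A + 1), x (Fin.last n) = 0 → ∀ l, l ≠ (Fin.last n) → x l = cap l := by
    intro x hx hx0 l hl
    obtain ⟨i, rfl⟩ := Fin.exists_castSucc_eq.2 hl
    obtain ⟨h1, h2⟩ := Box.mem_sl.1 hx
    rw [Fin.sum_univ_castSucc] at h2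
    exact (sum_eq_sum_iff_of_le fun i _ => h1 i.castSucc).1 (by rw [hA]; omega) i (mem_univ _)
  have heq : ∀ x y, x ∈ Box.sl cap 0 (A + 1) → x (Fin.last n) = 0 → y ∈ Box.sl cap 0 (A + 1) → y (Fin.last n) = 0 →
      x = y := fun x y hx hx0 hy hy0 => funext fun l => by
    rcases eq_or_ne l (Fin.last n) with rfl | hl
    · rw [hx0, hy0]
    · rw [htop x hx hx0 l hl, htop y hy hy0 l hl]
  have h0 : (T.filter fun x => ¬ 0 < x (Fin.last n)).card ≤ 1 := card_le_one.2 fun x hx y hy => by
    simp only [mem_filter, not_lt, Nat.le_zero] at hx hy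
    exact heq x y (hT hx.1) hx.2 (hT hy.1) hy.2
  have hsplit := card_filter_add_card_filter_not (s := T) fun x => 0 < x (Fin.last n)
  have hsh : img = Box.shadow T := eq_of_subset_of_card_le himg (by omega)
  have hex : ∃ x ∈ T, x (Fin.last n) = 0 := by
    obtain ⟨x, hx⟩ : (T.filter fun x => ¬ 0 < x (Fin.last n)).Nonempty := card_pos.1 (by
      have := card_le_card himg; omega)
    simp only [mem_filter, not_lt, Nat.le_zero] at hx
    exact ⟨x, hx⟩
  refine subset_antisymm hT ?_
  suffices ∀ k, ∀ x ∈ Box.sl cap 0 (A + 1), x (Fin.last n) = k → x ∈ T from fun x hx => this _ x hx rfl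
  intro k
  induction k with
  | zero =>
    intro x hx hx0
    obtain ⟨x', hx', hx'0⟩ := hex
    exact (heq x' x (hT hx') hx'0 hx hx0) ▸ hx'
  | succ k ih =>
    intro x hx hxk
    obtain ⟨j, hj, hjc⟩ := exists_def hA hx (by omega)
    set y := Box.down x (Fin.last n)
    have hyx : Box.up y (Fin.last n) = x := Box.up_down (by omega)
    have hyL : y (Fin.last n) = k := by simp [y, Box.down, hxk]
    have hyj : y j = x j := by simp [y, Box.down, hj]
    obtain ⟨h1, h2⟩ := Box.mem_sl.1 hx
    have hw : Box.up y j ∈ Box.sl cap 0 (A + 1) := by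
      refine Box.mem_sl.2 ⟨fun l => ?_, by rw [Box.sum_up, ← Box.sum_up y (Fin.last n), hyx]; exact h2⟩
      rcases eq_or_ne l j with rfl | hlj
      · simp [Box.up, hyj]; omega
      · rw [show Box.up y j l = y l by simp [Box.up, hlj]]
        refine le_trans ?_ (h1 l)
        rcases eq_or_ne l (Fin.last n) with rfl | hl <;> simp [y, Box.down, *]
    have hmem : y ∈ img := hsh ▸ Box.mem_shadow.2 ⟨j, ih _ hw (by simp [Box.up, Ne.symm hj, hyL])⟩
    obtain ⟨x', hx', hx'y⟩ := mem_image.1 hmem
    rw [← hyx, ← hx'y, Box.up_down (mem_filter.1 hx').2]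
    exact (mem_filter.1 hx').1

/-- The points with the largest last exponent: their shadow is one point more. -/
theorem exists_shift (hlast : A + 1 ≤ cap (Fin.last n)) {k : ℕ}
    (hk : k + 1 ≤ (Box.sl cap 0 (A + 1)).card) :
    ∃ T, T ⊆ (Box.sl cap 0 (A + 1)).filter (fun x => x (Fin.last n) ≤ A) ∧ T.card = k ∧
      (Box.shadow T).card ≤ k + 1 := by
  classical
  have hD : ∀ r ≤ (Box.sl cap 0 (A + 1)).card, ∃ D ⊆ Box.sl cap 0 (A + 1), D.card = r ∧
      ∀ x ∈ D, ∀ y ∈ Box.sl cap 0 (A + 1), x (Fin.last n) < y (Fin.last n) → y ∈ D := by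
    intro r
    induction r with
    | zero => exact fun _ => ⟨∅, empty_subset _, card_empty, by simp⟩
    | succ r ih =>
      intro hr
      obtain ⟨D, hDS, hDc, hDu⟩ := ih (by omega)
      obtain ⟨v, hv, hmax⟩ := exists_max_image (Box.sl cap 0 (A + 1) \ D) (fun x => x (Fin.last n))
        (card_pos.1 (by rw [card_sdiff_of_subset hDS]; omega))
      rw [mem_sdiff] at hv
      refine ⟨insert v D, insert_subset hv.1 hDS, by rw [card_insert_of_notMem hv.2, hDc],
        fun x hx y hy hlt => ?_⟩
      rcases mem_insert.1 hx with rfl | hx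
      · by_contra h
        have := hmax y (mem_sdiff.2 ⟨hy, fun hyD => h (mem_insert_of_mem hyD)⟩)
        omega
      · exact mem_insert_of_mem (hDu x hx y hy hlt)
  obtain ⟨D, hDS, hDc, hDu⟩ := hD (k + 1) hk
  set z : Fin (n + 1) → ℕ := fun l => if l = (Fin.last n) then A + 1 else 0
  have hzS : z ∈ Box.sl cap 0 (A + 1) := Box.mem_sl.2
    ⟨fun l => by rcases eq_or_ne l (Fin.last n) with rfl | h <;> simp [z, *], by simp [z]⟩
  have huz : ∀ x ∈ Box.sl cap 0 (A + 1), A < x (Fin.last n) → x = z := fun x hx hxA => funext fun l => by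
    have h2 := (Box.mem_sl.1 hx).2
    have h3 := single_le_sum (f := x) (fun _ _ => Nat.zero_le _) (mem_univ (Fin.last n))
    rcases eq_or_ne l (Fin.last n) with rfl | h
    · simp [z]; omega
    · obtain ⟨i, rfl⟩ := Fin.exists_castSucc_eq.2 h
      rw [Fin.sum_univ_castSucc] at h2
      have := single_le_sum (f := fun i : Fin n => x i.castSucc) (fun _ _ => Nat.zero_le _)
        (mem_univ i)
      simp [z, h]; omega
  have hzD : z ∈ D := by
    obtain ⟨x, hx⟩ : D.Nonempty := card_pos.1 (by omega)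
    rcases Nat.lt_or_ge A (x (Fin.last n)) with h | h
    · exact huz x (hDS hx) h ▸ hx
    · exact hDu x hx z hzS (by simp [z]; omega)
  refine ⟨D.erase z, fun x hx => mem_filter.2 ⟨hDS (mem_of_mem_erase hx), not_lt.1 fun h =>
    ne_of_mem_erase hx (huz x (hDS (mem_of_mem_erase hx)) h)⟩,
    by rw [card_erase_of_mem hzD, hDc]; omega, ?_⟩
  rw [← hDc]
  refine (card_le_card (t := D.image fun x => Box.down x (Fin.last n)) fun y hy => ?_).trans card_image_le
  obtain ⟨i, hi⟩ := Box.mem_shadow.1 hy
  have hiS := hDS (mem_of_mem_erase hi)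
  obtain ⟨h1, h2⟩ := Box.mem_sl.1 hiS
  refine mem_image.2 ⟨Box.up y (Fin.last n), ?_, Box.down_up y (Fin.last n)⟩
  rcases eq_or_ne i (Fin.last n) with rfl | hiL
  · exact mem_of_mem_erase hi
  · refine hDu _ (mem_of_mem_erase hi) _ (Box.mem_sl.2 ⟨fun l => ?_, ?_⟩) ?_
    · rcases eq_or_ne l (Fin.last n) with rfl | hl
      · rw [Box.sum_up] at h2
        have := single_le_sum (f := y) (fun _ _ => Nat.zero_le _) (mem_univ (Fin.last n))
        simp [Box.up]; omega
      · refine le_trans ?_ (h1 l)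
        rcases eq_or_ne l i with rfl | hli <;> simp [Box.up, *]
    · rw [Box.sum_up] at h2 ⊢; exact h2
    · simp [Box.up, Ne.symm hiL]

end Vale.Agent.P200.Growth
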