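import Vale.Agent.P200.Quint.Regular

/-!
P200: a Hilbert function at most `d` cannot stay constant from `d` to `d + 1` on an ideal of finite
colength generated up to degree `d + 1`: a general linear form identifies the two degrees, and the
variables become commuting operators with a cyclic vector.
-/

noncomputable section

namespace Vale.Agent.P200.Growth

open MvPolynomial Module Finset Deg

variable {K : Type*} [Field K] {n : ℕ}

/-- Degree `d + 1` of `J` together with the multiples of `l`. -/
def upd (J : Ideal (MvPolynomial (Fin n) K)) (l : MvPolynomial (Fin n) K) (d : ℕ) :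
    Submodule K (MvPolynomial (Fin n) K) :=
  piece J (d + 1) ⊔ (part K n d).map (LinearMap.mulLeft K l)

/-- The point of the moment curve at `t`, as a linear form. -/
def curve (K : Type*) [Field K] (n : ℕ) (t : K) : MvPolynomial (Fin n) K :=
  ∑ i : Fin n, (t ^ (i : ℕ)) • X i

lemma upd_le {J : Ideal (MvPolynomial (Fin n) K)} {l : MvPolynomial (Fin n) K}
    (hl : l.IsHomogeneous 1) (d : ℕ) : upd J l d ≤ part K n (d + 1) := by
  refine sup_le inf_le_right ?_
  rintro _ ⟨p, hp, rfl⟩
  exact add_comm 1 d ▸ hl.mul hp

/-- Infinitely many points of the moment curve span the linear forms. -/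
lemma X_mem_span {S : Set K} (hS : S.Infinite) (i : Fin n) :
    (X i : MvPolynomial (Fin n) K) ∈ Submodule.span K (curve K n '' S) := by
  by_contra hX
  obtain ⟨φ, hφi, hφ⟩ := Submodule.exists_dual_map_eq_bot_of_notMem hX inferInstance
  set f : Polynomial K := ∑ j : Fin n, Polynomial.C (φ (X j)) * Polynomial.X ^ (j : ℕ)
  have hf : f = 0 := by
    refine Polynomial.eq_zero_of_infinite_isRoot f (hS.mono fun t ht => ?_)
    have h0 : φ (curve K n t) = 0 := by
      simpa [hφ] using Submodule.mem_map_of_mem (f := φ)
        (Submodule.subset_span (Set.mem_image_of_mem (curve K n) ht))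
    show f.eval t = 0
    rw [← h0, curve, map_sum]
    simp only [f, Polynomial.eval_finset_sum, Polynomial.eval_mul, Polynomial.eval_C,
      Polynomial.eval_pow, Polynomial.eval_X, map_smul, smul_eq_mul]
    exact Finset.sum_congr rfl fun j _ => mul_comm _ _
  refine hφi ?_
  have := congrArg (fun g => Polynomial.coeff g (i : ℕ)) hf
  simpa [f, Polynomial.coeff_X_pow, Fin.val_inj] using this

/-- Green: if the codimension in degree `d + 1` is at most `d + 1`, almost every form of the curve
completes the degree. -/
lemma upd_eq_top : ∀ (d : ℕ) (J : Ideal (MvPolynomial (Fin n) K)), Homog J →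
    hilb J (d + 1) ≤ d + 1 → {t : K | upd J (curve K n t) d ≠ part K n (d + 1)}.Finite := by
  intro d
  induction d using Nat.strong_induction_on with
  | _ d ih =>
    intro J hJ hd
    by_contra hinf
    set bad := {t : K | upd J (curve K n t) d ≠ part K n (d + 1)}
    -- a bad form sees a smaller codimension
    have hcol : ∀ t ∈ bad, hilb (colon J (curve K n t)) d < hilb J (d + 1) := by
      intro t ht
      set l := curve K n t
      have hl : l.IsHomogeneous 1 := isHomogeneous_lin _
      set f := (piece J (d + 1)).mkQ.comp ((LinearMap.mulLeft K l).domRestrict (part K n d))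
      have hle := upd_le (J := J) hl d
      have hlt : finrank K ↥(upd J l d) < finrank K (part K n (d + 1)) :=
        Submodule.finrank_lt_finrank_of_lt (lt_of_le_of_ne hle ht)
      have hU : Module.Finite K ↥(upd J l d) := Submodule.finiteDimensional_of_le hle
      have hP : piece J (d + 1) ≤ upd J l d := le_sup_left
      have h1 := LinearMap.finrank_range_add_finrank_ker
        ((piece J (d + 1)).mkQ.domRestrict (upd J l d))
      rw [LinearMap.range_domRestrict, LinearMap.ker_domRestrict, Submodule.ker_mkQ,
        (Submodule.comapSubtypeEquivOfLe hP).finrank_eq] at h1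
      have hr : LinearMap.range f = (upd J l d).map (piece J (d + 1)).mkQ := by
        rw [upd, Submodule.map_sup, Submodule.mkQ_map_self, bot_sup_eq, LinearMap.range_comp,
          LinearMap.range_domRestrict]
      have hk : finrank K (LinearMap.ker f) ≤ finrank K (piece (colon J l) d) := by
        rw [← Submodule.finrank_map_subtype_eq]
        refine Submodule.finrank_mono ?_
        rintro _ ⟨x, hx, rfl⟩
        have hx' : l * x.1 ∈ piece J (d + 1) :=
          (Submodule.Quotient.mk_eq_zero _).1 (LinearMap.mem_ker.1 hx)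
        exact mem_piece.2 ⟨mem_colon.2 (mem_piece.1 hx').1, x.2⟩
      have h2 := LinearMap.finrank_range_add_finrank_ker f
      rw [hr] at h2
      have := hilb_add J (d + 1); have := hilb_add (colon J l) d
      omega
    -- for almost all pairs the bad spaces agree
    have hpair : ∀ t ∈ bad, {s | ¬ upd J (curve K n t) d ≤ upd J (curve K n s) d}.Finite := by
      intro t ht
      have hlt : (curve K n t).IsHomogeneous 1 := isHomogeneous_lin _
      have hc := hcol t ht
      rcases d with _ | d
      · refine Set.finite_empty.subset fun s hs => hs (sup_le le_sup_left ?_)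
        rintro _ ⟨p, hp, rfl⟩
        have hfull : piece (colon J (curve K n t)) 0 = part K n 0 :=
          Submodule.eq_of_le_of_finrank_le inf_le_right
            (by have := hilb_add (colon J (curve K n t)) 0; omega)
        have hpc : p ∈ colon J (curve K n t) :=
          (mem_piece.1 (hfull.symm ▸ hp : p ∈ piece (colon J (curve K n t)) 0)).1
        exact Submodule.mem_sup_left (mem_piece.2 ⟨mem_colon.1 hpc, hlt.mul hp⟩)
      · refine (ih d (Nat.lt_succ_self d) _ (hJ.colon hlt) (by omega)).subset fun s hs hgood =>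
          hs (sup_le le_sup_left ?_)
        rintro _ ⟨p, hp, rfl⟩
        obtain ⟨u, hu, w, ⟨v, hv, rfl⟩, rfl⟩ := Submodule.mem_sup.1
          (hgood.symm ▸ hp : p ∈ upd (colon J (curve K n t)) (curve K n s) d)
        rw [LinearMap.mulLeft_apply, LinearMap.mulLeft_apply, mul_add, mul_left_comm]
        exact Submodule.add_mem_sup (mem_piece.2 ⟨mem_colon.1 (mem_piece.1 hu).1,
            add_comm 1 (d + 1) ▸ hlt.mul (mem_piece.1 hu).2⟩)
          (Submodule.mem_map_of_mem (f := LinearMap.mulLeft K (curve K n s))
            (add_comm 1 d ▸ hlt.mul hv : (curve K n t * v).IsHomogeneous (d + 1)))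
    -- pigeonhole on the dimension
    have hmaps : Set.MapsTo (fun t => finrank K ↥(upd J (curve K n t) d)) bad
        (Set.Iio (finrank K (part K n (d + 1)))) := fun t ht =>
      Submodule.finrank_lt_finrank_of_lt (lt_of_le_of_ne (upd_le (isHomogeneous_lin _) d) ht)
    obtain ⟨r, -, hr⟩ : ∃ r ∈ Set.Iio (finrank K (part K n (d + 1))),
        {t ∈ bad | finrank K ↥(upd J (curve K n t) d) = r}.Infinite := by
      by_contra hc
      simp only [not_exists, not_and, Set.not_infinite] at hc
      exact hinf (((Set.finite_Iio _).biUnion fun r hr => hc r hr).subset fun t ht =>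
        Set.mem_biUnion (hmaps ht) ⟨ht, rfl⟩)
    set B := {t ∈ bad | finrank K ↥(upd J (curve K n t) d) = r}
    obtain ⟨t, ht⟩ := hr.nonempty
    have hB' := hr.sdiff (hpair t ht.1)
    have hU : ∀ s, Module.Finite K ↥(upd J (curve K n s) d) := fun s =>
      Submodule.finiteDimensional_of_le (upd_le (isHomogeneous_lin _) d)
    have heq : ∀ s ∈ B \ {s | ¬ upd J (curve K n t) d ≤ upd J (curve K n s) d},
        upd J (curve K n s) d = upd J (curve K n t) d := fun s hs =>
      (Submodule.eq_of_le_of_finrank_le (not_not.1 hs.2) (by rw [hs.1.2, ht.2])).symm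
    refine ht.1 (le_antisymm (upd_le (isHomogeneous_lin _) d) ?_)
    rw [part_eq_span_monomials]
    refine Submodule.span_le.2 ?_
    rintro _ ⟨z, hz, rfl⟩
    obtain ⟨i, hi⟩ : ∃ i, z i ≠ 0 := by
      by_contra hc
      simp only [not_exists, not_not] at hc
      have : z = 0 := Finsupp.ext hc
      simp [this] at hz
    have hle : Finsupp.single i 1 ≤ z := Finsupp.single_le_iff.2 (Nat.one_le_iff_ne_zero.2 hi)
    have hdeg : (z - Finsupp.single i 1).degree = d := by
      have := congrArg Finsupp.degree (tsub_add_cancel_of_le hle)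
      rw [map_add, Finsupp.degree_single] at this
      have hs' : z.degree = d + 1 := hz
      omega
    have key : ∀ q ∈ Submodule.span K
        (curve K n '' (B \ {s | ¬ upd J (curve K n t) d ≤ upd J (curve K n s) d})),
        q * monomial (z - Finsupp.single i 1) (1 : K) ∈ upd J (curve K n t) d := by
      intro q hq
      induction hq using Submodule.span_induction with
      | mem x hx =>
        obtain ⟨s, hs, rfl⟩ := hx
        rw [← heq s hs]
        exact Submodule.mem_sup_right (Submodule.mem_map_of_mem
          (f := LinearMap.mulLeft K (curve K n s)) (isHomogeneous_monomial _ hdeg))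
      | zero => rw [zero_mul]; exact zero_mem _
      | add x y _ _ hx hy => rw [add_mul]; exact add_mem hx hy
      | smul c x _ hx => rw [smul_mul_assoc]; exact Submodule.smul_mem _ _ hx
    show monomial z (1 : K) ∈ upd J (curve K n t) d
    rw [show z = Finsupp.single i 1 + (z - Finsupp.single i 1) from
      (add_tsub_cancel_of_le hle).symm, monomial_single_add, pow_one]
    exact key _ (X_mem_span hB' i)

/-- Degree `j` of `S / I`. -/
abbrev Q (I : Ideal (MvPolynomial (Fin n) K)) (j : ℕ) :=
  part K n j ⧸ (piece I j).comap (part K n j).subtype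

/-- The class of the degree `j` component. -/
def cls (I : Ideal (MvPolynomial (Fin n) K)) (j : ℕ) : MvPolynomial (Fin n) K →ₗ[K] Q I j :=
  ((piece I j).comap (part K n j).subtype).mkQ.comp
    ((homogeneousComponent j).codRestrict (part K n j) fun p =>
      homogeneousComponent_isHomogeneous j p)

lemma cls_eq_zero {I : Ideal (MvPolynomial (Fin n) K)} {j : ℕ} {p : MvPolynomial (Fin n) K} :
    cls I j p = 0 ↔ homogeneousComponent j p ∈ I := by
  refine (Submodule.Quotient.mk_eq_zero _).trans ⟨fun h => (mem_piece.1 h).1, fun h => ?_⟩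
  exact mem_piece.2 ⟨h, homogeneousComponent_isHomogeneous j p⟩

lemma cls_surjective (I : Ideal (MvPolynomial (Fin n) K)) (j : ℕ) :
    Function.Surjective (cls I j) := fun y => by
  obtain ⟨⟨p, hp⟩, rfl⟩ := Submodule.Quotient.mk_surjective _ y
  exact ⟨p, congrArg Submodule.Quotient.mk (Subtype.ext (homogeneousComponent_eq_self hp))⟩

lemma finrank_Q (I : Ideal (MvPolynomial (Fin n) K)) (j : ℕ) : finrank K (Q I j) = hilb I j := by
  have h1 := Submodule.finrank_quotient_add_finrank ((piece I j).comap (part K n j).subtype)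
  have e : finrank K ((piece I j).comap (part K n j).subtype) = finrank K (piece I j) :=
    (Submodule.comapSubtypeEquivOfLe (inf_le_right : piece I j ≤ part K n j)).finrank_eq
  have := hilb_add I j
  show finrank K (part K n j ⧸ (piece I j).comap (part K n j).subtype) = _
  omega

/-- Multiplication by a linear form. -/
def mulQ (I : Ideal (MvPolynomial (Fin n) K)) (j : ℕ) {u : MvPolynomial (Fin n) K}
    (hu : u.IsHomogeneous 1) : Q I j →ₗ[K] Q I (j + 1) :=
  Submodule.mapQ _ _ ((LinearMap.mulLeft K u).restrict
    fun v (hv : v ∈ part K n j) => (add_comm 1 j ▸ hu.mul hv : (u * v).IsHomogeneous (j + 1)))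
    fun x hx => mem_piece.2 ⟨I.mul_mem_left u (mem_piece.1 hx).1,
      (add_comm 1 j ▸ hu.mul x.2 : (u * x.1).IsHomogeneous (j + 1))⟩

lemma mulQ_cls (I : Ideal (MvPolynomial (Fin n) K)) (j : ℕ) {u : MvPolynomial (Fin n) K}
    (hu : u.IsHomogeneous 1) (p : MvPolynomial (Fin n) K) :
    mulQ I j hu (cls I j p) = cls I (j + 1) (u * p) :=
  congrArg Submodule.Quotient.mk (Subtype.ext (component_mul hu p j).symm)

variable {I : Ideal (MvPolynomial (Fin n) K)} {l : MvPolynomial (Fin n) K} {d : ℕ}

lemma exists_mul_cls (hl : l.IsHomogeneous 1) (ht : upd I l d = part K n (d + 1))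
    (y : Q I (d + 1)) : ∃ p, cls I (d + 1) (l * p) = y := by
  obtain ⟨x, rfl⟩ := cls_surjective I (d + 1) y
  obtain ⟨u, hu, w, ⟨v, -, rfl⟩, he⟩ := Submodule.mem_sup.1
    (ht.symm ▸ homogeneousComponent_isHomogeneous (d + 1) x :
      homogeneousComponent (d + 1) x ∈ upd I l d)
  have h : homogeneousComponent (d + 1) (u + l * v) = u + l * v := by
    rw [← LinearMap.mulLeft_apply (R := K), he,
      homogeneousComponent_eq_self (homogeneousComponent_isHomogeneous _ x)]
  rw [map_add, homogeneousComponent_eq_self (mem_piece.1 hu).2] at h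
  refine ⟨v, sub_eq_zero.1 ?_⟩
  rw [← map_sub, cls_eq_zero, map_sub, ← he, LinearMap.mulLeft_apply, add_left_cancel h,
    sub_add_cancel_right]
  exact neg_mem (mem_piece.1 hu).1

/-- Commuting operators `Y` with a cyclic vector force the degree to vanish. -/
lemma eq_zero_of_ops (hl : l.IsHomogeneous 1)
    (Y : Fin n → Module.End K (Q I (d + 1))) (hcomm : ∀ i j, Y i * Y j = Y j * Y i)
    (φ : Q I (d + 1) →ₗ[K] Q I (d + 2)) (hφ : Function.Injective φ)
    (hφl : ∀ p, φ (cls I (d + 1) p) = cls I (d + 2) (l * p))
    (hY : ∀ i p, φ (Y i (cls I (d + 1) p)) = cls I (d + 2) (X i * p))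
    {c : Fin n → K} (hc : l = ∑ i, c i • X i)
    {ι : Type*} {q : ι → MvPolynomial (Fin n) K} {a : ι → ℕ}
    (hd : ∀ i, (q i).IsHomogeneous (a i)) (hq : ∀ i, q i ∈ I) (hfc : FiniteColength q)
    (ha : ∀ i, a i ≤ d + 2) (y : Q I (d + 1)) : y = 0 := by
  let R := Algebra.adjoin K (Set.range Y)
  have hR : IsMulCommutative R := Algebra.isMulCommutative_adjoin K (by
    rintro _ ⟨i, rfl⟩ _ ⟨j, rfl⟩; exact hcomm i j)
  let _ : CommRing R := { (inferInstance : Ring R) with mul_comm := hR.is_comm.comm }
  let Ψ : MvPolynomial (Fin n) K →ₐ[K] R :=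
    aeval fun i => (⟨Y i, Algebra.subset_adjoin ⟨i, rfl⟩⟩ : R)
  let ev : MvPolynomial (Fin n) K →ₗ[K] Q I (d + 1) :=
    (LinearMap.applyₗ (cls I (d + 1) (l ^ (d + 1)))).comp (R.val.toLinearMap.comp Ψ.toLinearMap)
  have hmul : ∀ i p, ev (X i * p) = Y i (ev p) := fun i p => by
    show (Ψ (X i * p) : Module.End K (Q I (d + 1))) _ = Y i ((Ψ p : Module.End K (Q I (d + 1))) _)
    rw [map_mul, show Ψ (X i) = ⟨Y i, Algebra.subset_adjoin ⟨i, rfl⟩⟩ from aeval_X _ i]
    rfl
  have hlow : ∀ z : Fin n →₀ ℕ, z.degree ≤ d + 1 →
      ev (monomial z 1) = cls I (d + 1) (monomial z 1 * l ^ (d + 1 - z.degree)) ∧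
        ∀ i, φ (ev (X i * monomial z 1))
          = cls I (d + 2) (X i * monomial z 1 * l ^ (d + 1 - z.degree)) := by
    suffices key : ∀ k, ∀ z : Fin n →₀ ℕ, z.degree = k → k ≤ d + 1 →
        ev (monomial z 1) = cls I (d + 1) (monomial z 1 * l ^ (d + 1 - k)) from fun z hz =>
      ⟨key _ z rfl hz, fun i => by rw [hmul, key _ z rfl hz, hY, mul_assoc]⟩
    intro k
    induction k with
    | zero =>
      intro z hz _
      obtain rfl : z = 0 := (Finsupp.degree_eq_zero_iff z).1 hz
      simp [ev]
    | succ k ih =>
      intro z hz hk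
      obtain ⟨i, hi⟩ : ∃ i, z i ≠ 0 := by
        by_contra hc
        simp only [not_exists, not_not] at hc
        have : z = 0 := Finsupp.ext hc
        simp [this] at hz
      have hle : Finsupp.single i 1 ≤ z := Finsupp.single_le_iff.2 (Nat.one_le_iff_ne_zero.2 hi)
      obtain ⟨z', rfl⟩ : ∃ z', z = Finsupp.single i 1 + z' :=
        ⟨_, (add_tsub_cancel_of_le hle).symm⟩
      rw [map_add, Finsupp.degree_single] at hz
      refine hφ ?_
      rw [monomial_single_add, pow_one, hmul, ih z' (by omega) (by omega), hY, hφl,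
        show d + 1 - k = d + 1 - (k + 1) + 1 by omega, pow_succ]
      congr 1
      ring
  have hmon : ∀ (j : ℕ) (p : MvPolynomial (Fin n) K), p.IsHomogeneous j → ∀ s ∈ p.support,
      Finsupp.degree s = j := fun j p hp s hs => by_contra fun h' =>
    (mem_support_iff.1 hs) (hp.coeff_eq_zero h')
  have hsum : ∀ p : MvPolynomial (Fin n) K, p = ∑ s ∈ p.support, coeff s p • monomial s (1 : K) :=
    fun p => by
      conv_lhs => rw [p.as_sum]
      exact Finset.sum_congr rfl fun s _ => by rw [smul_monomial, smul_eq_mul, mul_one]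
  have hann : ∀ i, ev (q i) = 0 := by
    intro i
    rcases Nat.lt_or_ge (a i) (d + 2) with hai | hai
    · have : ev (q i) = cls I (d + 1) (q i * l ^ (d + 1 - a i)) := by
        conv_lhs => rw [hsum (q i)]
        conv_rhs => rw [hsum (q i), Finset.sum_mul]
        rw [map_sum, map_sum]
        refine Finset.sum_congr rfl fun s hs => ?_
        have hsd := hmon _ _ (hd i) s hs
        rw [smul_mul_assoc, map_smul, map_smul, (hlow s (by omega)).1, hsd]
      rw [this, cls_eq_zero]
      have h := (hd i).mul (hl.pow (d + 1 - a i))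
      rw [one_mul, Nat.add_sub_cancel' (by omega : a i ≤ d + 1)] at h
      rw [homogeneousComponent_eq_self h]
      exact I.mul_mem_right _ (hq i)
    · have he : a i = d + 2 := le_antisymm (ha i) hai
      refine hφ ?_
      have : φ (ev (q i)) = cls I (d + 2) (q i) := by
        conv_lhs => rw [hsum (q i)]
        conv_rhs => rw [hsum (q i)]
        rw [map_sum, map_sum, map_sum]
        refine Finset.sum_congr rfl fun s hs => ?_
        rw [map_smul, map_smul, map_smul]
        congr 1
        have hsd := hmon _ _ (hd i) s hs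
        obtain ⟨k, hk⟩ : ∃ k, s k ≠ 0 := by
          by_contra hc
          simp only [not_exists, not_not] at hc
          have : s = 0 := Finsupp.ext hc
          simp [this, he] at hsd
        have hle : Finsupp.single k 1 ≤ s := Finsupp.single_le_iff.2 (Nat.one_le_iff_ne_zero.2 hk)
        obtain ⟨s', rfl⟩ : ∃ s', s = Finsupp.single k 1 + s' :=
          ⟨_, (add_tsub_cancel_of_le hle).symm⟩
        rw [map_add, Finsupp.degree_single] at hsd
        rw [monomial_single_add, pow_one, (hlow s' (by omega)).2 k,
          show d + 1 - Finsupp.degree s' = 0 by omega, pow_zero, mul_one]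
      rw [this, map_zero, cls_eq_zero, homogeneousComponent_eq_self (he ▸ hd i)]
      exact hq i
  have hl1 : R.val (Ψ l) = 1 := by
    refine LinearMap.ext fun w => hφ ?_
    obtain ⟨p, rfl⟩ := cls_surjective I (d + 1) w
    have hΨl : R.val (Ψ l) = ∑ i, c i • Y i := by simp [hc, Ψ, map_sum, map_smul]
    rw [hΨl, Module.End.one_apply, hφl, LinearMap.sum_apply, map_sum, hc, Finset.sum_mul, map_sum]
    exact Finset.sum_congr rfl fun i _ => by
      rw [LinearMap.smul_apply, map_smul, hY, smul_mul_assoc, map_smul]
  have he0 : cls I (d + 1) (l ^ (d + 1)) = 0 := by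
    obtain ⟨N, hN⟩ := hfc
    have hmulev : ∀ u p, ev p = 0 → ev (u * p) = 0 := fun u p hp => by
      show R.val (Ψ (u * p)) _ = 0
      rw [map_mul, map_mul, Module.End.mul_apply]
      exact (congrArg (R.val (Ψ u)) hp).trans (map_zero _)
    have hker : ∀ p ∈ Ideal.span (Set.range q), ev p = 0 := fun p hp => by
      induction hp using Submodule.span_induction with
      | mem x hx => obtain ⟨i, rfl⟩ := hx; exact hann i
      | zero => exact map_zero _
      | add x y _ _ hx hy => rw [map_add, hx, hy, add_zero]
      | smul u x _ hx => exact hmulev u x hx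
    have h := hker _ (hN (l ^ N) (by simpa using hl.pow N))
    change R.val (Ψ (l ^ N)) _ = 0 at h
    rwa [map_pow, map_pow, hl1, one_pow, Module.End.one_apply] at h
  obtain ⟨p, rfl⟩ := cls_surjective I (d + 1) y
  have hcomp : cls I (d + 1) p = cls I (d + 1) (homogeneousComponent (d + 1) p) :=
    congrArg Submodule.Quotient.mk (Subtype.ext
      (homogeneousComponent_eq_self (homogeneousComponent_isHomogeneous (d + 1) p)).symm)
  rw [hcomp, hsum (homogeneousComponent (d + 1) p), map_sum]
  refine Finset.sum_eq_zero fun s hs => ?_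
  have hsd := hmon _ _ (homogeneousComponent_isHomogeneous (d + 1) p) s hs
  have h := (hlow s hsd.le).1
  rw [hsd, Nat.sub_self, pow_zero, mul_one] at h
  rw [map_smul, ← h, show ev (monomial s 1) = R.val (Ψ (monomial s 1)) (cls I (d + 1) (l ^ (d + 1)))
    from rfl, he0, map_zero, smul_zero]

/-- No plateau at height at most `d` for an ideal with forms of finite colength in low degree. -/
theorem no_plateau [Infinite K] {ι : Type*} (hI : Homog I) {q : ι → MvPolynomial (Fin n) K}
    {a : ι → ℕ} (hd : ∀ i, (q i).IsHomogeneous (a i)) (hq : ∀ i, q i ∈ I) (hfc : FiniteColength q)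
    (ha : ∀ i, a i ≤ d + 1) (hm : hilb I d = hilb I (d + 1)) (hle : hilb I d ≤ d) :
    hilb I d = 0 := by
  rcases d with _ | d
  · omega
  obtain ⟨t, ht⟩ := ((upd_eq_top d I hI (by omega)).union
    (upd_eq_top (d + 1) I hI (by omega))).infinite_compl.nonempty
  simp only [Set.mem_compl_iff, Set.mem_union, Set.mem_ofPred_eq, not_or, not_not] at ht
  have hl : (curve K n t).IsHomogeneous 1 := isHomogeneous_lin _
  have hsurj : Function.Surjective (mulQ I (d + 1) hl) := fun y => by
    obtain ⟨p, hp⟩ := exists_mul_cls hl ht.2 y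
    exact ⟨_, (mulQ_cls I (d + 1) hl p).trans hp⟩
  have hinj : Function.Injective (mulQ I (d + 1) hl) :=
    (LinearMap.injective_iff_surjective_of_finrank_eq_finrank
      (by rw [finrank_Q, finrank_Q]; exact hm)).2 hsurj
  let φ := LinearEquiv.ofBijective (mulQ I (d + 1) hl) ⟨hinj, hsurj⟩
  let Y : Fin n → Module.End K (Q I (d + 1)) := fun i =>
    φ.symm.toLinearMap.comp (mulQ I (d + 1) (isHomogeneous_X K i))
  have hY : ∀ i p, mulQ I (d + 1) hl (Y i (cls I (d + 1) p)) = cls I (d + 2) (X i * p) :=
    fun i p => (φ.apply_symm_apply _).trans (mulQ_cls I (d + 1) (isHomogeneous_X K i) p)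
  have hcomm : ∀ i j, Y i * Y j = Y j * Y i := fun i j => LinearMap.ext fun y => by
    obtain ⟨p, rfl⟩ := exists_mul_cls hl ht.1 y
    have h1 : ∀ k, Y k (cls I (d + 1) (curve K n t * p)) = cls I (d + 1) (X k * p) := fun k =>
      hinj (by rw [hY, mulQ_cls, mul_left_comm])
    refine hinj ?_
    rw [Module.End.mul_apply, Module.End.mul_apply, h1, h1, hY, hY, mul_left_comm]
  have : Subsingleton (Q I (d + 1)) := by
    have h := eq_zero_of_ops (I := I) hl Y hcomm (mulQ I (d + 1) hl) hinj
      (mulQ_cls I (d + 1) hl) hY (c := fun i : Fin n => t ^ (i : ℕ)) rfl hd hq hfc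
      (fun i => (ha i).trans (by omega))
    exact ⟨fun x y => (h x).trans (h y).symm⟩
  rw [← finrank_Q]
  exact finrank_zero_of_subsingleton

end Vale.Agent.P200.Growth
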