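import Vale.Agent.P200.Growth.Dual
import Vale.Agent.P200.Growth.Chain
import Vale.Agent.P200.Growth.Plateau

/-!
P200: the middle step when the top degree equals the socle degree of the forms before it.
-/

noncomputable section

namespace Vale.Agent.P200.Growth

open MvPolynomial Module Finset Deg Quint

variable {K : Type*} [Field K] [IsAlgClosed K] {n : ℕ}

/-- Replacing the top form by one outside the minimal primes of the others keeps the heights. -/
lemma tall_update {q : Fin (n + 1) → MvPolynomial (Fin (n + 1)) K} (hT : Tall q)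
    {v : MvPolynomial (Fin (n + 1)) K}
    (hv : ∀ Q ∈ (pre (q ∘ Fin.castSucc) n).minimalPrimes, v ∉ Q) :
    Tall (Function.update q (Fin.last n) v) := by
  intro i hi P hP hle
  rcases Nat.lt_or_ge i (n + 1) with hin | hin
  · refine hT i hi P hP (le_trans (Ideal.span_le.2 ?_) hle)
    rintro _ ⟨k, hk, rfl⟩
    have hk' : (k : ℕ) < i := hk
    exact Ideal.subset_span ⟨k, hk, Function.update_of_ne
      (fun e => by rw [e, Fin.val_last] at hk'; omega) _ _⟩
  · obtain rfl : i = n + 1 := by omega
    have hJP : pre (q ∘ Fin.castSucc) n ≤ P := by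
      refine le_trans (Ideal.span_le.2 ?_) hle
      rintro _ ⟨k, -, rfl⟩
      exact Ideal.subset_span ⟨k.castSucc, k.castSucc.isLt,
        Function.update_of_ne (Fin.castSucc_lt_last k).ne _ _⟩
    have hvP : v ∈ P := hle (Ideal.subset_span
      ⟨Fin.last n, (Fin.last n).isLt, Function.update_self _ _ _⟩)
    obtain ⟨Q, hQ, hQP⟩ := Ideal.exists_minimalPrimes_le hJP
    have := hQ.1.1
    have hlt : Q < P := lt_of_le_of_ne hQP fun e => hv Q hQ (e ▸ hvP)
    push_cast
    exact (add_le_add (tall_castSucc hT n le_rfl Q hQ.1.1 hQ.1.2) le_rfl).trans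
      (Ideal.height_add_one_le_of_lt_of_isPrime hlt)

/-- The step into degree `A + 2` when this is both the top degree and the socle degree below it. -/
theorem equal_step {a : Fin (n + 1) → ℕ} (ha : ∀ i, 1 ≤ a i) (hmono : Monotone a)
    {q : Fin (n + 1) → MvPolynomial (Fin (n + 1)) K} (hd : ∀ i, (q i).IsHomogeneous (a i))
    (hT : Tall q) {A : ℕ} (hlast : a (Fin.last n) = A + 2)
    (hsum : ∑ i : Fin n, (a i.castSucc - 1) = A + 2)
    (hlow : ∀ J : Ideal (MvPolynomial (Fin (n + 1)) K), Homog J → (∀ i : Fin n, q i.castSucc ∈ J) →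
      ∀ d, ∃ T, T ⊆ Box.sl (Function.update (fun i => a i - 1) (Fin.last n) (d + 1)) 0 (d + 1) ∧
        T.card = hilb J (d + 1) ∧ (Box.shadow T).card ≤ hilb J d)
    {I : Ideal (MvPolynomial (Fin (n + 1)) K)} (hI : Homog I) (hq : ∀ i, q i ∈ I) :
    ∃ T, T ⊆ Box.sl (fun i => a i - 1) 0 (A + 2) ∧ T.card = hilb I (A + 2) ∧
      (Box.shadow T).card ≤ hilb I (A + 1) := by
  classical
  set c := fun i => a i - 1 with hc
  set L := Fin.last n
  set cap := Function.update c L (A + 2) with hcap
  have hcapA : ∑ i : Fin n, cap i.castSucc = A + 2 := by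
    rw [← hsum]
    exact sum_congr rfl fun i _ => Function.update_of_ne (Fin.castSucc_lt_last i).ne _ _
  have hcapL : cap L = A + 2 := Function.update_self _ _ _
  have hcs : ∑ i, (a i - 1) = 2 * A + 3 := by
    rw [Fin.sum_univ_castSucc, hsum, hlast]; omega
  have hreg := tall_regular _ _ q le_rfl a ha hd hT
  have hFI : pre q (n + 1) ≤ I := by
    rw [pre_all]; exact Ideal.span_le.2 (by rintro _ ⟨i, rfl⟩; exact hq i)
  have hF : ∀ e, hilb (pre q (n + 1)) e = (Box.sl c 0 e).card := hilb_all ha hd hreg
  have hIle : ∀ e, hilb I e ≤ (Box.sl c 0 e).card := fun e => (hilb_anti hFI e).trans_eq (hF e)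
  have hsl : ∀ e, e ≤ A + 1 → Box.sl c 0 e = Box.sl cap 0 e := fun e he => by
    ext x
    simp only [Box.mem_sl]
    refine and_congr_left fun h2 => forall_congr' fun i => ?_
    rcases eq_or_ne i L with rfl | hi
    · have := single_le_sum (f := x) (fun _ _ => Nat.zero_le _) (mem_univ L)
      have : c L = A + 1 := by simp only [hc, L, hlast]; omega
      rw [hcapL]; omega
    · rw [hcap, Function.update_of_ne hi]
  have hfilter : (Box.sl cap 0 (A + 2)).filter (fun x => x L ≤ A + 1) = Box.sl c 0 (A + 2) := by
    ext x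
    simp only [mem_filter, Box.mem_sl]
    refine ⟨fun h => ⟨fun i => ?_, h.1.2⟩, fun h => ⟨⟨fun i => ?_, h.2⟩, ?_⟩⟩
    · rcases eq_or_ne i L with rfl | hi
      · have := h.2
        have : c L = A + 1 := by simp only [hc, L, hlast]; omega
        omega
      · have := h.1.1 i; rwa [hcap, Function.update_of_ne hi] at this
    · rcases eq_or_ne i L with rfl | hi
      · have := h.1 L
        have : c L = A + 1 := by simp only [hc, L, hlast]; omega
        rw [hcapL]; omega
      · rw [hcap, Function.update_of_ne hi]; exact h.1 i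
    · have := h.1 L
      have : c L = A + 1 := by simp only [hc, L, hlast]; omega
      omega
  have hbig : (Box.sl cap 0 (A + 2)).card = (Box.sl c 0 (A + 2)).card + 1 := by
    rw [← hfilter, ← card_filter_add_card_filter_not (s := Box.sl cap 0 (A + 2)) fun x => x L ≤ A + 1]
    congr 1
    refine card_eq_one.2 ⟨Function.update 0 L (A + 2), eq_singleton_iff_unique_mem.2 ⟨?_, fun x hx => ?_⟩⟩
    · refine mem_filter.2 ⟨Box.mem_sl.2 ⟨fun i => ?_, ?_⟩, by simp⟩
      · rcases eq_or_ne i L with rfl | hi <;> simp [hcapL, *]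
      · rw [sum_update_of_mem (mem_univ L)]; simp
    · obtain ⟨hxs, hxL⟩ := mem_filter.1 hx
      obtain ⟨h1, h2⟩ := Box.mem_sl.1 hxs
      have hle := h1 L
      rw [hcapL] at hle
      funext i
      rcases eq_or_ne i L with rfl | hi
      · simp; omega
      · have := sum_le_sum_of_subset (f := x) (s := {i, L}) (t := univ) (subset_univ _)
        rw [sum_pair hi] at this
        simp [hi]; omega
  have hsym : (Box.sl c 0 (A + 2)).card = (Box.sl c 0 (A + 1)).card :=
    card_sl_symm c (by show A + 2 + (A + 1) = ∑ i, (a i - 1); rw [hcs]; omega)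
  rcases Nat.eq_zero_or_pos (hilb I (A + 2)) with hk0 | hkpos
  · exact ⟨∅, empty_subset _, by rw [hk0, card_empty], by simp [Box.shadow]⟩
  rcases Nat.lt_or_ge (hilb I (A + 2)) (hilb I (A + 1)) with hlt | hge
  · obtain ⟨T, hT1, hTc, hTs⟩ := exists_shift (cap := cap) (A := A + 1) (by rw [hcapL])
      (k := hilb I (A + 2)) (by have := hIle (A + 2); rw [hbig]; omega)
    exact ⟨T, hfilter ▸ hT1, hTc, hTs.trans (by omega)⟩
  rcases (hIle (A + 2)).lt_or_eq with hkP | hkP
  swap
  · -- everything in degree `A + 2` is already in the complete intersection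
    refine ⟨_, Subset.rfl, hkP.symm, (card_le_card (Box.shadow_subset Subset.rfl)).trans ?_⟩
    have he : piece (pre q (n + 1)) (A + 2) = piece I (A + 2) :=
      Submodule.eq_of_le_of_finrank_le (inf_le_inf_right _ hFI) (by
        have := hilb_add (pre q (n + 1)) (A + 2); have := hilb_add I (A + 2); have := hF (A + 2)
        omega)
    have hle : piece I (A + 1) ≤ piece (pre q (n + 1)) (A + 1) := fun u hu => by
      refine mem_piece.2 ⟨nondeg ha hd hT (A + 2) (A + 1) (by rw [hcs]; omega) u
        (mem_piece.1 hu).2 fun v hv => ?_, (mem_piece.1 hu).2⟩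
      have hv' : v ∈ Submodule.span K ((fun s => monomial s (1 : K)) '' {s | s.degree = A + 2}) := by
        rw [← part_eq_span_monomials]; exact hv
      clear hv
      induction hv' using Submodule.span_induction with
      | mem x hx =>
        obtain ⟨s, hs, rfl⟩ := hx
        obtain ⟨t, hts, htd⟩ := Finsupp.exists_le_degree_eq s 1 (by
          have hs' : s.degree = A + 2 := hs
          omega)
        show u * monomial s (1 : K) ∈ pre q (n + 1)
        rw [show monomial s (1 : K) = monomial t 1 * monomial (s - t) 1 by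
          rw [monomial_mul, one_mul, add_tsub_cancel_of_le hts], ← mul_assoc]
        exact Ideal.mul_mem_right _ _ (mem_piece.1 (he.symm ▸ mem_piece.2
          ⟨I.mul_mem_right _ (mem_piece.1 hu).1,
            (mem_piece.1 hu).2.mul (isHomogeneous_monomial _ htd)⟩ :
            u * monomial t 1 ∈ piece (pre q (n + 1)) (A + 2))).1
      | zero => rw [mul_zero]; exact Ideal.zero_mem _
      | add x y _ _ hx hy => rw [mul_add]; exact add_mem hx hy
      | smul r x _ hx => rw [mul_smul_comm]; exact Submodule.smul_of_tower_mem _ r hx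
    have := Submodule.finrank_mono hle
    have := hilb_add (pre q (n + 1)) (A + 1); have := hilb_add I (A + 1); have := hF (A + 1)
    omega
  exfalso
  -- the ideal of the lower degrees
  by_cases hunit : ∃ v ∈ piece I (A + 1), ∀ Q ∈ (pre (q ∘ Fin.castSucc) n).minimalPrimes, v ∉ Q
  · obtain ⟨v, hv, hvQ⟩ := hunit
    obtain ⟨hvI, hvd⟩ := mem_piece.1 hv
    set q' := Function.update q L v
    set a' := Function.update a L (A + 1)
    have hd' : ∀ i, (q' i).IsHomogeneous (a' i) := fun i => by
      rcases eq_or_ne i L with rfl | hi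
      · simpa [q', a'] using hvd
      · simpa [q', a', hi] using hd i
    have ha' : ∀ i, 1 ≤ a' i := fun i => by
      rcases eq_or_ne i L with rfl | hi
      · simp [a']
      · simpa [a', hi] using ha i
    have hT' : Tall q' := tall_update hT hvQ
    have hqI' : ∀ i, q' i ∈ I := fun i => by
      rcases eq_or_ne i L with rfl | hi
      · simpa [q'] using hvI
      · simpa [q', hi] using hq i
    have hsum' : ∑ i, (a' i - 1) = 2 * A + 2 := by
      rw [Fin.sum_univ_castSucc, show a' (Fin.last n) = A + 1 from Function.update_self _ _ _,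
        sum_congr rfl fun i _ => by
          rw [show a' (Fin.castSucc i) = a i.castSucc from
            Function.update_of_ne (Fin.castSucc_lt_last i).ne _ _], hsum]
      omega
    set c' := fun i => a' i - 1 with hc'
    have l1 := hilb_link ha' hd' hT' hI hqI' (x := A + 1) (y := A + 1) (by rw [hsum']; omega)
    have l2 := hilb_link ha' hd' hT' hI hqI' (x := A + 2) (y := A) (by rw [hsum']; omega)
    obtain ⟨T, hT1, hTc, hTs⟩ := hlow (link q' I) (homog_link hd' hI) (fun i => by
      have := mem_link (q := q') I i.castSucc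
      rwa [show q' i.castSucc = q i.castSucc from
        Function.update_of_ne (Fin.castSucc_lt_last i).ne _ _] at this) A
    set capB := Function.update c L (A + 1) with hcapB
    have hc'L : c' L = A := by simp [hc', a']
    have hc'o : ∀ i, i ≠ L → c' i = capB i := fun i hi => by simp [hc', a', hcapB, hc, hi]
    have hcapBA : ∑ i : Fin n, capB i.castSucc = A + 2 := by
      rw [← hsum]
      exact sum_congr rfl fun i _ => Function.update_of_ne (Fin.castSucc_lt_last i).ne _ _
    have e1 : (Box.sl capB 0 (A + 1)).card = (Box.sl c' 0 (A + 1)).card + 1 := by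
      rw [← card_filter_add_card_filter_not (s := Box.sl capB 0 (A + 1)) fun x => x L ≤ A]
      congr 1
      · congr 1
        ext x
        simp only [mem_filter, Box.mem_sl]
        refine ⟨fun h => ⟨fun i => ?_, h.1.2⟩, fun h => ⟨⟨fun i => ?_, h.2⟩, hc'L ▸ h.1 L⟩⟩
        · rcases eq_or_ne i L with rfl | hi
          · rw [hc'L]; exact h.2
          · rw [hc'o i hi]; exact h.1.1 i
        · rcases eq_or_ne i L with rfl | hi
          · have := h.1 L
            simp [hcapB]; omega
          · rw [← hc'o i hi]; exact h.1 i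
      · refine card_eq_one.2 ⟨Function.update 0 L (A + 1), eq_singleton_iff_unique_mem.2 ⟨?_, fun x hx => ?_⟩⟩
        · refine mem_filter.2 ⟨Box.mem_sl.2 ⟨fun i => ?_, ?_⟩, by simp⟩
          · rcases eq_or_ne i L with rfl | hi <;> simp [hcapB, *]
          · rw [sum_update_of_mem (mem_univ L)]; simp
        · obtain ⟨hxs, hxL⟩ := mem_filter.1 hx
          obtain ⟨h1, h2⟩ := Box.mem_sl.1 hxs
          funext i
          rcases eq_or_ne i L with rfl | hi
          · have := h1 L; simp [hcapB] at this ⊢; omega
          · have := sum_le_sum_of_subset (f := x) (s := {i, L}) (t := univ) (subset_univ _)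
            rw [sum_pair hi] at this
            simp [hi]; omega
    have e2 : (Box.sl c' 0 (A + 2)).card = (Box.sl capB 0 A).card := by
      rw [card_sl_symm c' (d := A + 2) (e := A) (by show A + 2 + A = ∑ i, (a' i - 1); rw [hsum']; omega)]
      congr 1
      ext x
      simp only [Box.mem_sl]
      refine and_congr_left fun h2 => forall_congr' fun i => ?_
      rcases eq_or_ne i L with rfl | hi
      · have := single_le_sum (f := x) (fun _ _ => Nat.zero_le _) (mem_univ L)
        rw [hc'L]; simp [hcapB]; omega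
      · rw [hc'o i hi]
    set M := Box.sl capB 0 (A + 1) \ T
    set U := Box.sl capB 0 A \ Box.shadow T
    have hMc : M.card = hilb I (A + 1) + 1 := by
      rw [card_sdiff_of_subset hT1, hTc]
      have : (Box.sl c' 0 (A + 1)).card = hilb I (A + 1) + hilb (link q' I) (A + 1) := l1.symm
      omega
    have hUc : hilb I (A + 2) ≤ U.card := by
      rw [card_sdiff_of_subset (Box.shadow_subset hT1)]
      have : (Box.sl c' 0 (A + 2)).card = hilb I (A + 2) + hilb (link q' I) A := l2.symm
      omega
    obtain ⟨hlt', j, hj, hjc⟩ := chain (A := A) (M := M) (U := U) hcapBA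
      (Function.update_self (Fin.last n) (A + 1) c).symm.le
      sdiff_subset sdiff_subset (fun y hy i hi => by
        obtain ⟨hy1, hy2⟩ := mem_sdiff.1 hy
        refine mem_sdiff.2 ⟨?_, fun hT2 => hy2 (Box.mem_shadow.2 ⟨i, hT2⟩)⟩
        obtain ⟨h1, h2⟩ := Box.mem_sl.1 hy1
        refine Box.mem_sl.2 ⟨fun l => ?_, by rw [Box.sum_up]; omega⟩
        rcases eq_or_ne l i with rfl | hl
        · simp [Box.up]; omega
        · simp [Box.up, hl, h1 l])
      (card_pos.1 (by omega)) (by omega)
    have hja : capB j ≤ A + 1 := by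
      have := hmono (Fin.le_last j)
      rw [hlast] at this
      rw [hcapB, Function.update_of_ne hj]
      show a j - 1 ≤ A + 1
      omega
    have hkh : hilb I (A + 1) = hilb I (A + 2) := by omega
    have := no_plateau (d := A + 1) hI hd hq (tall_finiteColength hd hT)
      (fun i => (hmono (Fin.le_last i)).trans hlast.le) hkh (by omega)
    omega
  · -- all of degree `A + 1` lies in a prime avoiding the top form
    obtain ⟨Q, hQ, hQall⟩ : ∃ Q ∈ (pre (q ∘ Fin.castSucc) n).minimalPrimes,
        ∀ x ∈ piece I (A + 1), x ∈ Q := by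
      by_contra hc
      simp only [not_exists, not_and, not_forall] at hc
      obtain ⟨v, hv, hvQ⟩ := exists_avoid (fun _ : Fin 1 => pre (q ∘ Fin.castSucc) n) (piece I (A + 1))
        fun _ Q hQ => by obtain ⟨x, hx, hxQ⟩ := hc Q hQ; exact ⟨x, hx, hxQ⟩
      exact hunit ⟨v, hv, hvQ 0⟩
    have hqQ : q L ∉ Q := fun h => by
      have hQp := hQ.1.1
      have hle : pre q (n + 1) ≤ Q := by
        refine Ideal.span_le.2 ?_
        rintro _ ⟨k, -, rfl⟩
        refine Fin.lastCases h (fun i => hQ.1.2 (Ideal.subset_span ⟨i, i.isLt, rfl⟩)) k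
      have h1 := (hT (n + 1) le_rfl Q hQp hle).trans
        (Ideal.height_le_card_of_mem_minimalPrimes_span (Set.toFinite _) hQ)
      have h2 : ((q ∘ Fin.castSucc) '' {j : Fin n | (j : ℕ) < n}).ncard ≤ n := by
        refine (Set.ncard_image_le (Set.toFinite _)).trans ((Set.ncard_le_ncard
          (Set.subset_univ _) (Set.toFinite _)).trans ?_)
        rw [Set.ncard_univ, Nat.card_eq_fintype_card, Fintype.card_fin]
      have := Nat.cast_le.1 h1
      omega
    set J := pre (q ∘ Fin.castSucc) n ⊔
      Ideal.span (Set.range fun x : piece I (A + 1) => x.1) with hJdef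
    obtain ⟨hJh, -⟩ := sup_powers (homog_pre (q := q ∘ Fin.castSucc) (fun i => hd _) n)
      (g := fun x : piece I (A + 1) => x.1) (N := A + 1) fun x => (mem_piece.1 x.2).2
    have hJI : J ≤ I := sup_le
      (Ideal.span_le.2 (by rintro _ ⟨i, -, rfl⟩; exact hq _))
      (Ideal.span_le.2 (by rintro _ ⟨x, rfl⟩; exact (mem_piece.1 x.2).1))
    have hJQ : J ≤ Q := sup_le hQ.1.2 (Ideal.span_le.2 (by rintro _ ⟨x, rfl⟩; exact hQall _ x.2))
    have h1 : hilb J (A + 1) = hilb I (A + 1) := by
      have : piece J (A + 1) = piece I (A + 1) := le_antisymm (inf_le_inf_right _ hJI) fun x hx =>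
        mem_piece.2 ⟨Submodule.mem_sup_right (Ideal.subset_span ⟨⟨x, hx⟩, rfl⟩), (mem_piece.1 hx).2⟩
      rw [hilb, hilb, this]
    have h2 : hilb I (A + 2) < hilb J (A + 2) := by
      have hle : piece J (A + 2) ≤ piece I (A + 2) := inf_le_inf_right _ hJI
      have hlt : piece J (A + 2) < piece I (A + 2) := lt_of_le_of_ne hle fun e => hqQ (hJQ
        (mem_piece.1 (e.symm ▸ mem_piece.2 ⟨hq L, hlast ▸ hd L⟩ : q L ∈ piece J (A + 2))).1)
      have : Module.Finite K ↥(piece I (A + 2)) := Submodule.finiteDimensional_of_le inf_le_right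
      have := Submodule.finrank_lt_finrank_of_lt hlt
      have := hilb_add J (A + 2); have := hilb_add I (A + 2)
      omega
    obtain ⟨T, hT1, hTc, hTs⟩ := hlow J hJh
      (fun i => Submodule.mem_sup_left (Ideal.subset_span ⟨i, i.isLt, rfl⟩)) (A + 1)
    change T.card = hilb J (A + 2) at hTc
    have heq : T = Box.sl cap 0 (A + 2) := eq_slice_of_small_shadow (cap := cap) (A := A + 1) hcapA (by rw [hcapL]) hT1 (by omega)
    rw [heq] at hTc hTs
    have hsub : Box.sl c 0 (A + 1) ⊆ Box.shadow (Box.sl cap 0 (A + 2)) := fun y hy => by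
      refine Box.mem_shadow.2 ⟨L, ?_⟩
      rw [hsl _ le_rfl] at hy
      obtain ⟨hy1, hy2⟩ := Box.mem_sl.1 hy
      refine Box.mem_sl.2 ⟨fun l => ?_, by rw [Box.sum_up]; omega⟩
      rcases eq_or_ne l L with rfl | hl
      · have := single_le_sum (f := y) (fun _ _ => Nat.zero_le _) (mem_univ L)
        simp [Box.up, hcapL]; omega
      · simp [Box.up, hl, hy1 l]
    have := card_le_card hsub
    omega

end Vale.Agent.P200.Growth
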