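import Vale.Agent.P200.Growth.Linkage

/-!
P200: the Hilbert function of a complete intersection counts the exponents in the box, and linkage
turns the growth bound in high degrees into the one in low degrees.
-/

noncomputable section

namespace Vale.Agent.P200.Growth

open MvPolynomial Module Finset Deg Quint

variable {K : Type*} [Field K] {n : ℕ}

/-- Exponents of degree `d` below `a` in the first `k` places. -/
def below (a : Fin n → ℕ) (k d : ℕ) : Finset (Fin n → ℕ) :=
  (Box.sl (fun _ => d) 0 d).filter fun x => ∀ i : Fin n, (i : ℕ) < k → x i < a i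

lemma mem_below {a : Fin n → ℕ} {k d : ℕ} {x : Fin n → ℕ} :
    x ∈ below a k d ↔ ∑ i, x i = d ∧ ∀ i : Fin n, (i : ℕ) < k → x i < a i := by
  simp only [below, mem_filter, Box.mem_sl, Nat.add_zero]
  exact ⟨fun h => ⟨h.1.2, h.2⟩, fun h =>
    ⟨⟨fun i => h.1 ▸ single_le_sum (f := x) (fun _ _ => Nat.zero_le _) (mem_univ i), h.1⟩, h.2⟩⟩

/-- A regular sequence has the Hilbert function of the box. -/
lemma hilb_pre {q : Fin n → MvPolynomial (Fin n) K} {a : Fin n → ℕ}
    (hd : ∀ i, (q i).IsHomogeneous (a i)) (hq : Regular q) :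
    ∀ k ≤ n, ∀ d, hilb (pre q k) d = (below a k d).card := by
  intro k hk
  induction k with
  | zero =>
    intro d
    have : piece (pre q 0) d = ⊥ := by
      rw [Submodule.eq_bot_iff]
      intro p hp
      simpa [pre] using (mem_piece.1 hp).1
    rw [hilb, this, finrank_bot, Nat.sub_zero, ← card_monomials, below,
      filter_true_of_mem fun x _ i hi => absurd hi (Nat.not_lt_zero _)]
  | succ k ih =>
    intro d
    set i : Fin n := ⟨k, by omega⟩
    obtain ⟨h1, h2⟩ := hilb_step hd hq i
    have hsucc : ∀ x : Fin n → ℕ, (∀ j : Fin n, (j : ℕ) < k + 1 → x j < a j) ↔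
        (∀ j : Fin n, (j : ℕ) < k → x j < a j) ∧ x i < a i := fun x =>
      ⟨fun h => ⟨fun j hj => h j (by omega), h i (Nat.lt_succ_self k)⟩, fun h j hj => by
        rcases Nat.lt_succ_iff_lt_or_eq.1 hj with hj | hj
        · exact h.1 j hj
        · rw [show j = i from Fin.ext hj]; exact h.2⟩
    rcases Nat.lt_or_ge d (a i) with hd' | hd'
    · have e : below a (k + 1) d = below a k d := by
        ext x
        simp only [mem_below, hsucc]
        refine ⟨fun h => ⟨h.1, h.2.1⟩, fun h => ⟨h.1, h.2, ?_⟩⟩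
        have := single_le_sum (f := x) (fun _ _ => Nat.zero_le _) (mem_univ i)
        omega
      rw [e, ← ih (by omega)]
      exact h2 d hd'
    · obtain ⟨e, rfl⟩ : ∃ e, d = e + a i := ⟨d - a i, by omega⟩
      have h := h1 e
      rw [ih (by omega), ih (by omega)] at h
      have hsub : below a (k + 1) (e + a i) ⊆ below a k (e + a i) := fun x hx => by
        simp only [mem_below, hsucc] at hx ⊢; exact ⟨hx.1, hx.2.1⟩
      have hcard : (below a k (e + a i) \ below a (k + 1) (e + a i)).card = (below a k e).card := by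
        refine (card_bij' (fun x _ => Function.update x i (x i + a i))
          (fun x _ => Function.update x i (x i - a i)) (fun x hx => ?_) (fun x hx => ?_)
          (fun x _ => ?_) (fun x hx => ?_)).symm
        · rw [mem_below] at hx
          have := Box.sum_update_add x i (x i + a i)
          simp only [mem_sdiff, mem_below, hsucc]
          refine ⟨⟨by omega, fun j hj => ?_⟩, fun hh => ?_⟩
          · rw [Function.update_of_ne (Fin.ne_of_lt hj)]; exact hx.2 j hj
          · have := hh.2.2; simp at this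
        · simp only [mem_sdiff, mem_below, hsucc] at hx
          have hxi : a i ≤ x i := not_lt.1 fun hh => hx.2 ⟨hx.1.1, hx.1.2, hh⟩
          have := Box.sum_update_add x i (x i - a i)
          refine mem_below.2 ⟨by omega, fun j hj => ?_⟩
          rw [Function.update_of_ne (Fin.ne_of_lt hj)]; exact hx.1.2 j hj
        · simp
        · simp only [mem_sdiff, mem_below, hsucc] at hx
          have hxi : a i ≤ x i := not_lt.1 fun hh => hx.2 ⟨hx.1.1, hx.1.2, hh⟩
          simp [Nat.sub_add_cancel hxi]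
      have := card_sdiff_add_card_eq_card hsub
      show hilb (pre q ((i : ℕ) + 1)) (e + a i) = _
      omega

lemma hilb_all {q : Fin n → MvPolynomial (Fin n) K} {a : Fin n → ℕ} (ha : ∀ i, 1 ≤ a i)
    (hd : ∀ i, (q i).IsHomogeneous (a i)) (hq : Regular q) (d : ℕ) :
    hilb (pre q n) d = (Box.sl (fun i => a i - 1) 0 d).card := by
  rw [hilb_pre hd hq n le_rfl]
  congr 1
  ext x
  rw [mem_below, Box.mem_sl, Nat.add_zero]
  exact ⟨fun h => ⟨fun i => by have := h.2 i i.2; omega, h.1⟩,
    fun h => ⟨h.2, fun i _ => by have := h.1 i; have := ha i; omega⟩⟩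

/-- The reflection of the box. -/
def refl (c x : Fin n → ℕ) : Fin n → ℕ := fun i => c i - x i

lemma refl_mem {c x : Fin n → ℕ} {d e : ℕ} (hde : d + e = ∑ i, c i) (hx : x ∈ Box.sl c 0 d) :
    refl c x ∈ Box.sl c 0 e := by
  obtain ⟨h1, h2⟩ := Box.mem_sl.1 hx
  refine Box.mem_sl.2 ⟨fun i => Nat.sub_le _ _, ?_⟩
  have : ∑ i, refl c x i + ∑ i, x i = ∑ i, c i := by
    rw [← sum_add_distrib]; exact sum_congr rfl fun i _ => Nat.sub_add_cancel (h1 i)
  omega

lemma refl_refl {c x : Fin n → ℕ} (hx : ∀ i, x i ≤ c i) : refl c (refl c x) = x :=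
  funext fun i => Nat.sub_sub_self (hx i)

lemma card_sl_symm (c : Fin n → ℕ) {d e : ℕ} (hde : d + e = ∑ i, c i) :
    (Box.sl c 0 d).card = (Box.sl c 0 e).card :=
  card_bij' (fun x _ => refl c x) (fun x _ => refl c x) (fun _ hx => refl_mem hde hx)
    (fun _ hx => refl_mem (by omega) hx) (fun _ hx => refl_refl (Box.mem_sl.1 hx).1)
    (fun _ hx => refl_refl (Box.mem_sl.1 hx).1)

variable [IsAlgClosed K]

/-- The ideal linked to `I` through a complete intersection. -/
def link (q : Fin n → MvPolynomial (Fin n) K) (I : Ideal (MvPolynomial (Fin n) K)) :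
    Ideal (MvPolynomial (Fin n) K) :=
  colonSpace (pre q n) (I.restrictScalars K)

omit [IsAlgClosed K] in
lemma mem_link {q : Fin n → MvPolynomial (Fin n) K} (I : Ideal (MvPolynomial (Fin n) K)) (i : Fin n) :
    q i ∈ link q I :=
  fun _ _ => Ideal.mul_mem_right _ _ (by rw [pre_all]; exact Ideal.subset_span ⟨i, rfl⟩)

omit [IsAlgClosed K] in
lemma homog_link {q : Fin n → MvPolynomial (Fin n) K} {a : Fin n → ℕ}
    (hd : ∀ i, (q i).IsHomogeneous (a i)) {I : Ideal (MvPolynomial (Fin n) K)} (hI : Homog I) :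
    Homog (link q I) := by
  intro p hp m u hu
  rw [← sum_homogeneousComponent (φ := u), mul_sum]
  refine Ideal.sum_mem _ fun j _ => ?_
  have h := homog_pre hd n _ (hp _ (hI u hu j)) (m + j)
  rwa [component_mul_homog (homogeneousComponent_isHomogeneous j u), if_pos (by omega),
    Nat.add_sub_cancel] at h

/-- Linked ideals have complementary Hilbert functions. -/
theorem hilb_link {q : Fin n → MvPolynomial (Fin n) K} {a : Fin n → ℕ} (ha : ∀ i, 1 ≤ a i)
    (hd : ∀ i, (q i).IsHomogeneous (a i)) (hT : Tall q) {I : Ideal (MvPolynomial (Fin n) K)}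
    (hI : Homog I) (hqI : ∀ i, q i ∈ I) {x y : ℕ} (hxy : x + y = ∑ i, (a i - 1)) :
    hilb I x + hilb (link q I) y = (Box.sl (fun i => a i - 1) 0 x).card := by
  obtain ⟨s, hs⟩ : ∃ s, ∑ i, (a i - 1) = s := ⟨_, rfl⟩
  rw [hs] at hxy
  set c := fun i => a i - 1
  have hcs : ∑ i, c i = s := hs
  have hreg := tall_regular n n q le_rfl a ha hd hT
  have hF := hilb_all ha hd hreg
  have hs1 : hilb (pre q n) s = 1 := by
    rw [hF, card_eq_one]
    refine ⟨c, eq_singleton_iff_unique_mem.2 ⟨Box.mem_sl.2 ⟨fun _ => le_rfl, hcs⟩, fun x hx => ?_⟩⟩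
    obtain ⟨h1, h2⟩ := Box.mem_sl.1 hx
    exact funext fun i => (sum_eq_sum_iff_of_le fun i _ => h1 i).1 (by rw [hcs]; omega) i (mem_univ i)
  have hFI : pre q n ≤ I := by
    rw [pre_all]; exact Ideal.span_le.2 (by rintro _ ⟨i, rfl⟩; exact hqI i)
  -- the linked ideal
  set J := link q I
  have h1 : finrank K (piece J y) + finrank K (piece I x)
      ≤ finrank K (part K n x) + finrank K (piece (pre q n) y) :=
    pair hs1 (by omega) (piece J y) (piece (pre q n) y) (part K n x) (piece I x) inf_le_right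
      le_rfl inf_le_right (fun u hu v hv => (mem_piece.1 hu).1 v (mem_piece.1 hv).1)
      fun u hu h => mem_piece.2 ⟨nondeg ha hd hT x y (by rw [hs]; omega) u (mem_piece.1 hu).2 h,
        (mem_piece.1 hu).2⟩
  have h2 : finrank K (part K n y) + finrank K (piece (pre q n) x)
      ≤ finrank K (piece I x) + finrank K (piece J y) := by
    refine pair hs1 (by omega) (part K n y) (piece J y) (piece I x) (piece (pre q n) x) le_rfl
      inf_le_right (inf_le_inf_right _ hFI)
      (fun u _ v hv => Ideal.mul_mem_left _ _ (mem_piece.1 hv).1) fun u hu h => ?_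
    refine mem_piece.2 ⟨fun w hw => ?_, hu⟩
    rw [← sum_homogeneousComponent (φ := w), mul_sum]
    refine Ideal.sum_mem _ fun j _ => ?_
    have hwj := hI w hw j
    have hwjd := homogeneousComponent_isHomogeneous (R := K) j w
    have hum : (u * homogeneousComponent j w).IsHomogeneous (y + j) := hu.mul hwjd
    rcases le_or_gt (y + j) s with hle | hgt
    · refine nondeg ha hd hT (s - (y + j)) (y + j) (by rw [hs]; omega) _ hum fun v hv => ?_
      rw [mul_assoc]
      refine h _ (mem_piece.2 ⟨I.mul_mem_right _ hwj, ?_⟩)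
      have := hwjd.mul (show v.IsHomogeneous (s - (y + j)) from hv)
      rwa [show j + (s - (y + j)) = x by omega] at this
    · have hz : hilb (pre q n) (y + j) = 0 := by
        rw [hF, card_eq_zero, eq_empty_iff_forall_notMem]
        intro z hz
        obtain ⟨h3, h4⟩ := Box.mem_sl.1 hz
        have := sum_le_sum (s := univ) fun i _ => h3 i
        rw [hcs] at this
        omega
      have hfull : piece (pre q n) (y + j) = part K n (y + j) :=
        Submodule.eq_of_le_of_finrank_le inf_le_right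
          (by have := hilb_add (pre q n) (y + j); omega)
      exact (mem_piece.1 (hfull.symm ▸ hum : _ ∈ piece (pre q n) (y + j))).1
  have := hilb_add I x; have := hilb_add J y
  have := hilb_add (pre q n) x; have := hilb_add (pre q n) y
  have : hilb (pre q n) x = (Box.sl c 0 x).card := hF x
  have : hilb (pre q n) y = (Box.sl c 0 y).card := hF y
  have := card_sl_symm c (hxy.trans hcs.symm)
  omega

/-- Linkage: from the bound in degree `e` for the linked ideal to the one in degree `d + 1`. -/
theorem linked_step_one {q : Fin n → MvPolynomial (Fin n) K} {a : Fin n → ℕ} (ha : ∀ i, 1 ≤ a i)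
    (hd : ∀ i, (q i).IsHomogeneous (a i)) (hT : Tall q) {I : Ideal (MvPolynomial (Fin n) K)}
    (hI : Homog I) (hqI : ∀ i, q i ∈ I) {d e : ℕ} (hde : d + (e + 1) = ∑ i, (a i - 1))
    (hlink : ∃ T, T ⊆ Box.sl (fun i => a i - 1) 0 (e + 1) ∧ T.card = hilb (link q I) (e + 1) ∧
      (Box.shadow T).card ≤ hilb (link q I) e ∧
      hilb (link q I) e ≤ (Box.sl (fun i => a i - 1) 0 e).card) :
    ∃ T, T ⊆ Box.sl (fun i => a i - 1) 0 (d + 1) ∧ T.card = hilb I (d + 1) ∧
      (Box.shadow T).card ≤ hilb I d := by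
  obtain ⟨s, hs⟩ : ∃ s, ∑ i, (a i - 1) = s := ⟨_, rfl⟩
  rw [hs] at hde
  set c := fun i => a i - 1
  have hcs : ∑ i, c i = s := hs
  set J := link q I
  have hlink' : ∀ x y, x + y = s → hilb I x + hilb J y = (Box.sl c 0 x).card :=
    fun x y h => hilb_link ha hd hT hI hqI (h.trans hs.symm)
  obtain ⟨T, hT', hTc, hTs, hle⟩ := hlink
  obtain ⟨U, hTU, hU, hUc⟩ := exists_subsuperset_card_eq (Box.shadow_subset hT') hTs hle
  refine ⟨Box.sl c 0 (d + 1) \ U.image (refl c), sdiff_subset, ?_, ?_⟩
  · rw [card_sdiff_of_subset (image_subset_iff.2 fun x hx => refl_mem (by rw [hcs]; omega) (hU hx)),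
      card_image_of_injOn (fun x hx y hy h => by
        rw [← refl_refl (Box.mem_sl.1 (hU hx)).1, h, refl_refl (Box.mem_sl.1 (hU hy)).1]), hUc]
    have := hlink' (d + 1) e (by omega)
    omega
  · have hsub : Box.shadow (Box.sl c 0 (d + 1) \ U.image (refl c))
        ⊆ Box.sl c 0 d \ T.image (refl c) := by
      intro x hx
      obtain ⟨i, hi⟩ := Box.mem_shadow.1 hx
      rw [mem_sdiff] at hi ⊢
      refine ⟨Box.shadow_subset Finset.Subset.rfl (Box.mem_shadow.2 ⟨i, hi.1⟩), fun hxT => ?_⟩
      obtain ⟨t, ht, rfl⟩ := mem_image.1 hxT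
      refine hi.2 (mem_image.2 ⟨Box.down t i, hTU (Box.mem_shadow.2 ⟨i, ?_⟩), ?_⟩)
      all_goals
        have h1 := (Box.mem_sl.1 hi.1).1 i
        have h2 := (Box.mem_sl.1 (hT' ht)).1
      · rw [Box.up_down]
        · exact ht
        · simp [Box.up, refl] at h1; omega
      · funext j
        rcases eq_or_ne j i with rfl | hj
        · simp [Box.up, Box.down, refl] at h1 ⊢; have := h2 j; omega
        · simp [Box.up, Box.down, refl, hj]
    refine (card_le_card hsub).trans ?_
    rw [card_sdiff_of_subset (image_subset_iff.2 fun x hx => refl_mem (by rw [hcs]; omega) (hT' hx)),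
      card_image_of_injOn (fun x hx y hy h => by
        rw [← refl_refl (Box.mem_sl.1 (hT' hx)).1, h, refl_refl (Box.mem_sl.1 (hT' hy)).1]), hTc]
    have := hlink' d (e + 1) hde
    omega

/-- Linkage: from the bound in degree `e` for the linked ideal to the one in degree `d + 1`. -/
theorem linked_step {q : Fin n → MvPolynomial (Fin n) K} {a : Fin n → ℕ} (ha : ∀ i, 1 ≤ a i)
    (hd : ∀ i, (q i).IsHomogeneous (a i)) (hT : Tall q) {I : Ideal (MvPolynomial (Fin n) K)}
    (hI : Homog I) (hqI : ∀ i, q i ∈ I) {d e : ℕ} (hde : d + (e + 1) = ∑ i, (a i - 1))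
    (hlink : ∀ J : Ideal (MvPolynomial (Fin n) K), Homog J → (∀ i, q i ∈ J) →
      ∃ T, T ⊆ Box.sl (fun i => a i - 1) 0 (e + 1) ∧ T.card = hilb J (e + 1) ∧
        (Box.shadow T).card ≤ hilb J e ∧ hilb J e ≤ (Box.sl (fun i => a i - 1) 0 e).card) :
    ∃ T, T ⊆ Box.sl (fun i => a i - 1) 0 (d + 1) ∧ T.card = hilb I (d + 1) ∧
      (Box.shadow T).card ≤ hilb I d :=
  linked_step_one ha hd hT hI hqI hde (hlink _ (homog_link hd hI) (mem_link I))

end Vale.Agent.P200.Growth
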