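import Mathlib

/-!
P200: the patterns of exceptional degrees: a small base, then degrees at least the total socle
degree of the exceptional forms before them.
-/

namespace Vale.Agent.P200.Growth

open Finset

variable {n m : ℕ}

/-- At most three forms of any degrees, or five quadrics. -/
def Base (a : Fin n → ℕ) (B : Finset (Fin n)) : Prop :=
  B.card ≤ 3 ∨ (B.card ≤ 5 ∧ ∀ i ∈ B, a i = 2)

/-- A base below some position, and fast growing degrees from there on. -/
def Adm (a : Fin n → ℕ) (B : Finset (Fin n)) : Prop :=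
  ∃ M : ℕ, Base a (B.filter fun i : Fin n => (i : ℕ) < M) ∧
    ∀ i ∈ B, M ≤ (i : ℕ) → (∑ j ∈ B.filter (fun j => j < i), (a j - 1)) ≤ a i

lemma Base.adm {a : Fin n → ℕ} {B : Finset (Fin n)} (h : Base a B) : Adm a B :=
  ⟨n, by rwa [filter_true_of_mem fun i _ => i.isLt], fun i _ hi => absurd i.isLt (by omega)⟩

/-- Passing to fewer positions, in the same order. -/
lemma Adm.transport {a : Fin n → ℕ} {a' : Fin m → ℕ} {B : Finset (Fin n)} {B' : Finset (Fin m)}
    (h : Adm a B) (f : B' → Fin n) (hf : StrictMono f) (hmem : ∀ i, f i ∈ B)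
    (hval : ∀ i : B', a' i.1 = a (f i)) : Adm a' B' := by
  classical
  obtain ⟨M, hbase, hgrow⟩ := h
  set M' := (B'.attach.filter fun i => (f i : ℕ) < M).sup fun i => (i.1 : ℕ) + 1
  have hM : ∀ i : B', (i.1 : ℕ) < M' ↔ (f i : ℕ) < M := fun i => by
    constructor
    · intro hi
      obtain ⟨j, hj, hij⟩ := Finset.lt_sup_iff.1 hi
      exact lt_of_le_of_lt (hf.monotone (show i ≤ j from Nat.lt_succ_iff.1 hij)) (mem_filter.1 hj).2
    · intro hi
      exact Finset.le_sup (f := fun i : B' => (i.1 : ℕ) + 1) (mem_filter.2 ⟨mem_attach _ _, hi⟩)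
  have hcard : ∀ (S : Finset (Fin m)) (T : Finset (Fin n)) (hS : S ⊆ B'),
      (∀ i (hi : i ∈ S), f ⟨i, hS hi⟩ ∈ T) → S.card ≤ T.card := fun S T hS hmap =>
    (card_attach (s := S)).symm.le.trans (card_le_card_of_injOn (fun i => f ⟨i.1, hS i.2⟩)
      (fun i _ => hmap _ i.2) fun i _ j _ e => Subtype.ext (congrArg Subtype.val (hf.injective e) :))
  refine ⟨M', ?_, fun i hi hMi => ?_⟩
  · have hsub : ∀ i (hi : i ∈ B'.filter fun i : Fin m => (i : ℕ) < M'),
        f ⟨i, (mem_filter.1 hi).1⟩ ∈ B.filter fun i : Fin n => (i : ℕ) < M := fun i hi =>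
      mem_filter.2 ⟨hmem _, (hM ⟨i, (mem_filter.1 hi).1⟩).1 (mem_filter.1 hi).2⟩
    have hc := hcard _ _ (filter_subset _ _) hsub
    rcases hbase with h | ⟨h, h2⟩
    · exact Or.inl (hc.trans h)
    · exact Or.inr ⟨hc.trans h, fun i hi =>
        (hval ⟨i, (mem_filter.1 hi).1⟩).trans (h2 _ (hsub i hi))⟩
  · refine le_trans ?_ ((hgrow _ (hmem ⟨i, hi⟩) (not_lt.1 fun h' =>
      absurd ((hM ⟨i, hi⟩).2 h') (not_lt.2 hMi))).trans_eq (hval ⟨i, hi⟩).symm)
    calc ∑ j ∈ B'.filter (fun j => j < i), (a' j - 1)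
        = ∑ j ∈ B'.attach.filter (fun j => j.1 < i), (a (f j) - 1) := by
          rw [sum_filter, sum_filter, ← sum_attach B']
          exact sum_congr rfl fun j _ => by rw [hval j]
      _ = ∑ k ∈ (B'.attach.filter (fun j => j.1 < i)).image f, (a k - 1) :=
          (sum_image (f := fun k => a k - 1) fun x _ y _ e => hf.injective e).symm
      _ ≤ _ := sum_le_sum_of_subset fun k hk => by
          obtain ⟨j, hj, rfl⟩ := mem_image.1 hk
          exact mem_filter.2 ⟨hmem j, hf (show j < ⟨i, hi⟩ from (mem_filter.1 hj).2)⟩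

end Vale.Agent.P200.Growth
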