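import Vale.Agent.P200.Growth.LPP

/-!
P200: the lex-plus-powers set over the field of definition.
-/

noncomputable section

namespace Vale.Agent.P200.Growth

open MvPolynomial Module Finset Deg

/-- The lex-plus-powers set over any field, splitting tested over the algebraic closure. -/
theorem lpp {K : Type*} [Field K] {n c : ℕ} (hc : c ≤ n) {I : Ideal (MvPolynomial (Fin n) K)}
    (hI : Homog I) {a : Fin c → ℕ} (ha : ∀ i, 1 ≤ a i) (hmono : Monotone a)
    {q : Fin c → MvPolynomial (Fin n) K} (hq : ∀ i, q i ∈ I) (hd : ∀ i, (q i).IsHomogeneous (a i))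
    (hreg : Deg.Regular q) {E : Finset (Fin c)} (hE : Adm a E)
    (hEs : ∀ i, i ∉ E → SplitN (a i) (ext (AlgebraicClosure K) (q i))) :
    ∃ M : Set (Fin n → ℕ),
      (∀ x, (∃ i, a i ≤ x (Fin.castLE hc i)) → x ∈ M) ∧
      (∀ x ∈ M, ∀ i, x + Pi.single i 1 ∈ M) ∧
      (∀ x ∈ M, ∀ y, (∀ i, x (Fin.castLE hc i) < a i) → (∀ i, y (Fin.castLE hc i) < a i) →
        ∑ i, x i = ∑ i, y i → toLex x < toLex y → y ∈ M) ∧
      ∀ d : ℕ, {x | x ∈ M ∧ ∑ i, x i = d}.ncard = finrank K ↥(piece I d) := by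
  obtain ⟨r, rfl⟩ := Nat.exists_eq_add_of_le hc
  have hcast : ∀ i : Fin c, Fin.castLE hc i = Fin.castAdd r i := fun i => rfl
  simp only [hcast]
  have hI' : Homog I := hI
  obtain ⟨M, h1, h2, h3, h4⟩ := Growth.lex_plus_powers
    (K := AlgebraicClosure K) (homog_map hI') ha hmono
    (q := fun i => ext (AlgebraicClosure K) (q i))
    (fun i => Ideal.mem_map_of_mem _ (hq i)) (fun i => (hd i).map _)
    (Deg.Regular.extend hreg) hE hEs
  refine ⟨M, h1, h2, h3, fun d => ?_⟩
  rw [h4 d]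
  have e1 := hilb_map (L := AlgebraicClosure K) hI' d
  have e2 := hilb_add I d
  have e3 := hilb_add (I.map (ext (AlgebraicClosure K))) d
  have e4 := finrank_part_eq (K := K) (L := AlgebraicClosure K) (n := c + r) d
  omega

end Vale.Agent.P200.Growth
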