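import Vale.Agent.P200.Growth.Main

/-!
P200: the lex-plus-powers form of EGH for `c ≤ n` forms: completing by high powers of generic
linear forms reduces to `c = n`, and the Clements-Lindström segments give the lex-plus-powers set.
-/

noncomputable section

namespace Vale.Agent.P200.Growth

open MvPolynomial Module Finset Deg Quint

variable {K : Type*} [Field K] {n c r : ℕ}

variable [IsAlgClosed K]

/-- For each large `N`, the Hilbert function below degree `N` obeys the box bound. -/
lemma good_below {I : Ideal (MvPolynomial (Fin (c + r)) K)} (hI : Homog I) {a : Fin c → ℕ}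
    (ha : ∀ i, 1 ≤ a i) (hmono : Monotone a) {q : Fin c → MvPolynomial (Fin (c + r)) K}
    (hq : ∀ i, q i ∈ I) (hd : ∀ i, (q i).IsHomogeneous (a i)) (hreg : Regular q)
    {E : Finset (Fin c)} (hE : Adm a E)
    (hsplit : ∀ i, i ∉ E → SplitN (a i) (q i)) (d : ℕ) :
    ∃ D, d + 1 ≤ D ∧ Monotone (cap r a D) ∧ ∃ T, T ⊆ Box.sl (cap r a D) 0 (d + 1) ∧
      T.card = hilb I (d + 1) ∧ (Box.shadow T).card ≤ hilb I d := by
  classical
  obtain ⟨l, hl, hzero⟩ := exists_linear_completion ha hd hreg
  obtain ⟨N, hN⟩ : ∃ N, N = d + 2 + ∑ i, a i := ⟨_, rfl⟩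
  set q' := Fin.append q fun j => l j ^ N
  set a' := Fin.append a fun _ : Fin r => N
  have hgd : ∀ j, (l j ^ N).IsHomogeneous N := fun j => by simpa using (hl j).pow N
  obtain ⟨hH, heq⟩ := sup_powers hI hgd
  have hNa : ∀ i, a i ≤ N := fun i => by
    have := Finset.single_le_sum (f := a) (fun _ _ => Nat.zero_le _) (mem_univ i); omega
  have hgood := good_growth (K := K) _ _ hH a'
    (Fin.addCases (fun i => by simpa [a'] using ha i) fun j => by simp [a']; omega)
    (monotone_append hmono hNa) q'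
    (Fin.addCases (fun i => by simpa [q'] using Submodule.mem_sup_left (hq i))
      fun j => by simp only [q', Fin.append_right]; exact Submodule.mem_sup_right (Ideal.subset_span ⟨j, rfl⟩))
    (Fin.addCases (fun i => by simpa [q', a'] using hd i) fun j => by simpa [q', a'] using hgd j)
    (finiteColength_of_zero fun v hv => hzero v
      (fun i => by simpa [q'] using hv (Fin.castAdd r i))
      fun j => by
        have := hv (Fin.natAdd c j)
        simp only [q', Fin.append_right, map_pow] at this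
        exact eq_zero_of_pow_eq_zero this)
    (by
      have hsub : bad a' q' ⊆ E.image (Fin.castAdd r) := fun i hi => by
        simp only [bad, mem_filter, mem_univ, true_and] at hi
        induction i using Fin.addCases with
        | left i =>
          refine mem_image.2 ⟨i, by_contra fun h => hi ?_, rfl⟩
          simp only [q', a', Fin.append_left]
          exact hsplit i h
        | right j =>
          refine absurd ?_ hi
          simp only [q', a', Fin.append_right]
          exact ⟨fun _ => l j, fun _ => hl j, by simp⟩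
      have hb : ∀ i : bad a' q', ∃ k ∈ E, Fin.castAdd r k = i.1 := fun i => mem_image.1 (hsub i.2)
      choose f hfE hf using hb
      refine hE.transport f (fun x y h => ?_) hfE fun i => by
        rw [← hf i]; simp [a']
      have h' : Fin.castAdd r (f x) < Fin.castAdd r (f y) := by rw [hf x, hf y]; exact h
      exact h')
  obtain ⟨T, hT, hTc, hTs⟩ := hgood.2 d
  have hcap : (fun i => a' i - 1) = cap r a (N - 1) := funext fun i => by
    induction i using Fin.addCases <;> simp [a', cap]
  rw [hcap] at hT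
  refine ⟨N - 1, by omega, ?_, T, hT, by rw [hTc, heq _ (by omega)],
    hTs.trans_eq (heq _ (by omega))⟩
  rw [← hcap]
  exact fun x y hxy => Nat.sub_le_sub_right (monotone_append hmono hNa hxy) 1

/-- The lex-plus-powers set: an upward closed set of exponents with the Hilbert function of `I`. -/
theorem lex_plus_powers {I : Ideal (MvPolynomial (Fin (c + r)) K)} (hI : Homog I) {a : Fin c → ℕ}
    (ha : ∀ i, 1 ≤ a i) (hmono : Monotone a) {q : Fin c → MvPolynomial (Fin (c + r)) K}
    (hq : ∀ i, q i ∈ I) (hd : ∀ i, (q i).IsHomogeneous (a i)) (hreg : Regular q)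
    {E : Finset (Fin c)} (hE : Adm a E)
    (hsplit : ∀ i, i ∉ E → SplitN (a i) (q i)) :
    ∃ M : Set (Fin (c + r) → ℕ),
      (∀ x, (∃ i, a i ≤ x (Fin.castAdd r i)) → x ∈ M) ∧
      (∀ x ∈ M, ∀ i, x + Pi.single i 1 ∈ M) ∧
      (∀ x ∈ M, ∀ y, (∀ i, x (Fin.castAdd r i) < a i) → (∀ i, y (Fin.castAdd r i) < a i) →
        ∑ i, x i = ∑ i, y i → toLex x < toLex y → y ∈ M) ∧
      ∀ d, {x | x ∈ M ∧ ∑ i, x i = d}.ncard = finrank K (piece I d) := by
  classical
  let S : ℕ → Finset (Fin (c + r) → ℕ) := fun e => Box.sl (cap r a e) 0 e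
  have hS : ∀ e D, e ≤ D → Box.sl (cap r a D) 0 e = S e := fun e D h => by
    ext x; rw [mem_sl_cap h, mem_sl_cap le_rfl]
  have hle : ∀ e, hilb I e ≤ (S e).card := by
    intro e
    cases e with
    | zero =>
      exact (hilb_zero_le I).trans
        (card_pos.2 ⟨0, (mem_sl_cap le_rfl).2 ⟨fun i => Nat.zero_le _, by simp⟩⟩)
    | succ e =>
      obtain ⟨D, hD, -, T, hT, hTc, -⟩ := good_below hI ha hmono hq hd hreg hE hsplit e
      rw [← hTc, ← hS _ D hD]
      exact card_le_card hT
  choose G hG hGc using fun e => Box.exists_seg (S e) (hilb I e) (hle e)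
  have hsh : ∀ e, Box.shadow (G (e + 1)) ⊆ G e := by
    intro e
    obtain ⟨D, hD, hcapm, T, hT, hTc, hTs⟩ := good_below hI ha hmono hq hd hreg hE hsplit e
    have hseg : Box.IsSeg (Box.sl (cap r a D) 0 (e + 1)) (G (e + 1)) := by
      rw [hS _ D hD]; exact hG _
    refine Box.IsSeg.subset_of_card (S := S e) ?_ (hG e) ?_
    · rw [← hS e D (by omega)]
      exact Box.isSeg_shadow hseg
    · rw [hGc]
      exact (Box.clements_lindstrom _ _ hcapm 0 e T _ hT hseg ((hGc _).trans hTc.symm)).trans hTs
  refine ⟨{x | x ∉ G (∑ i, x i)}, fun x ⟨i, hi⟩ hx => ?_, fun x hx i hup => hx ?_,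
    fun x hx y hxa _ he hlt hy => hx ?_, fun d => ?_⟩
  · have := ((mem_sl_cap le_rfl).1 ((hG _).1 hx)).1 i
    have := ha i
    omega
  · have h1 : x + Pi.single i 1 = Box.up x i := funext fun j => by
      rcases eq_or_ne j i with rfl | h <;> simp [Box.up, *]
    rw [h1, Box.sum_up] at hup
    exact hsh _ (Box.mem_shadow.2 ⟨i, hup⟩)
  · rw [← he] at hy
    exact (hG _).2 y hy x
      ((mem_sl_cap le_rfl).2 ⟨fun i => by have := hxa i; omega, rfl⟩) hlt
  · have hset : {x | x ∈ {x : Fin (c + r) → ℕ | x ∉ G (∑ i, x i)} ∧ ∑ i, x i = d}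
        = ↑((Box.sl (fun _ => d) 0 d) \ G d) := by
      ext x
      simp only [Set.mem_ofPred_eq, Finset.coe_sdiff, Set.mem_sdiff, Finset.mem_coe, Box.mem_sl,
        Nat.add_zero]
      refine ⟨fun ⟨h1, h2⟩ => ⟨⟨fun i => h2 ▸ Finset.single_le_sum (fun _ _ => Nat.zero_le _)
        (mem_univ i), h2⟩, h2 ▸ h1⟩, fun ⟨⟨_, h2⟩, h3⟩ => ⟨h2 ▸ h3, h2⟩⟩
    rw [hset, Set.ncard_coe_finset, card_sdiff_of_subset, card_monomials (K := K), hGc]
    · have := hilb_add I d; omega
    · intro x hx
      have h2 := ((mem_sl_cap le_rfl).1 ((hG d).1 hx)).2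
      rw [Box.mem_sl, Nat.add_zero]
      exact ⟨fun i => h2 ▸ Finset.single_le_sum (fun _ _ => Nat.zero_le _) (mem_univ i), h2⟩

end Vale.Agent.P200.Growth
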