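import Vale.Agent.P200.Quint.Main
import Vale.Agent.P200.Growth.Adm
import Vale.Agent.P200.Growth.Equal
import Vale.Agent.P200.Chain.Main

/-!
P200: EGH for forms which split, except a base followed by fast growing exceptional degrees.
-/

noncomputable section

namespace Vale.Agent.P200.Growth

open MvPolynomial Module Finset Deg Quint

variable {K : Type*} [Field K] [IsAlgClosed K] {n : ℕ}

/-- The numerical EGH statement for admissible families in `n` variables. -/
def GoodAt (K : Type*) [Field K] (n : ℕ) : Prop :=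
  ∀ (I : Ideal (MvPolynomial (Fin n) K)), Homog I → ∀ a : Fin n → ℕ, (∀ i, 1 ≤ a i) → Monotone a →
    ∀ q : Fin n → MvPolynomial (Fin n) K, (∀ i, q i ∈ I) → (∀ i, (q i).IsHomogeneous (a i)) →
      FiniteColength q → Adm a (bad a q) → Box.Good (fun i => a i - 1) (hilb I)

open Classical in
/-- Peeling a split member. -/
theorem good_peel (ih : GoodAt K n) {I : Ideal (MvPolynomial (Fin (n + 1)) K)} (hI : Homog I)
    {a : Fin (n + 1) → ℕ} (ha1 : ∀ i, 1 ≤ a i) (hmono : Monotone a)
    {q : Fin (n + 1) → MvPolynomial (Fin (n + 1)) K} (hq : ∀ i, q i ∈ I)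
    (hd : ∀ i, (q i).IsHomogeneous (a i)) (hfc : FiniteColength q) (hA : Adm a (bad a q))
    {j : Fin (n + 1)} (hs : SplitN (a j) (q j)) : Box.Good (fun i => a i - 1) (hilb I) := by
  obtain ⟨L, hL, hqj⟩ := hs
  have hj0 : q j ≠ 0 := by
    intro h0
    have hfc' : FiniteColength (q ∘ j.succAbove) := by
      obtain ⟨N, hN⟩ := hfc
      refine ⟨N, fun p hp => (Ideal.span_le.2 ?_) (hN p hp)⟩
      rintro _ ⟨i, rfl⟩
      refine Fin.succAboveCases j ?_ (fun k => ?_) i
      · rw [h0]; exact Submodule.zero_mem _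
      · exact Ideal.subset_span ⟨k, rfl⟩
    have := card_ge hfc' (fun i => ha1 (j.succAbove i)) fun i => hd _
    simp at this
  have hL0 : ∀ k, L k ≠ 0 := fun k h => hj0 (by rw [hqj]; exact prod_eq_zero (mem_univ k) h)
  -- restriction to a hyperplane containing the split form
  have hres : ∀ (k : Fin (a j)) (H : Hyper (L k)) (J : Ideal (MvPolynomial (Fin (n + 1)) K)),
      Homog J → I ≤ J → Box.Good (fun i => a (j.succAbove i) - 1) (hilb (H.res J)) := by
    intro k H J hJ hle
    have hc : H.φ (q j) = 0 := by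
      rw [hqj, map_prod]; exact prod_eq_zero (mem_univ k) H.φ_a
    refine ih (H.res J) (H.homog_res hJ) _ (fun i => ha1 _)
      (hmono.comp (Fin.strictMono_succAbove j).monotone) (fun i => H.φ (q (j.succAbove i)))
      (fun i => H.mem_res.2 ⟨_, hle (hq _), rfl⟩) (fun i => H.hφ (hd _)) ?_ ?_
    · obtain ⟨N, hN⟩ := hfc
      refine ⟨N, fun p hp => ?_⟩
      have h1 := Ideal.mem_map_of_mem H.φ (hN _ (H.hsec hp))
      rw [H.φ_sec, Ideal.map_span] at h1
      refine (Ideal.span_le.2 ?_) h1
      rintro _ ⟨_, ⟨i, rfl⟩, rfl⟩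
      refine Fin.succAboveCases j ?_ (fun k => ?_) i
      · rw [hc]; exact Submodule.zero_mem _
      · exact Ideal.subset_span ⟨k, rfl⟩
    · refine hA.transport (fun i => j.succAbove i.1)
        (fun x y h => Fin.strictMono_succAbove j h) (fun i => ?_) fun i => rfl
      have hi := i.2
      simp only [bad, mem_filter, mem_univ, true_and] at hi ⊢
      rintro ⟨M, hM, e⟩
      exact hi ⟨fun k => H.φ (M k), fun k => H.hφ (hM k), by rw [e, map_prod]⟩
  have hex : ∀ k, Nonempty (Hyper (L k)) := fun k => exists_hyper (hL k) (hL0 k)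
  let H := fun k => (hex k).some
  refine Box.good_glue (fun x y hxy => Nat.sub_le_sub_right (hmono hxy) 1) j (hilb_zero_le I)
    fun d => ?_
  have haj : a j - 1 + 1 = a j := Nat.sub_add_cancel (ha1 j)
  obtain ⟨g, B, h1, h2, h3, h4, -⟩ := peel_layers (c := fun i => a (j.succAbove i) - 1) (a j)
    L H hL hL0 I hI (hqj ▸ hq j) (fun k J hJ hle => hres k (H k) J hJ hle) (d + 1)
  exact ⟨g, B, fun k hk => h3 k (by omega), fun k hk => h4 k (by omega), by rw [haj]; exact h1,
    by rw [haj]; simpa using h2⟩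

open Classical in
/-- Below the top degree a power of a linear form may replace the top form. -/
theorem good_low' (ih : GoodAt K n) {a : Fin (n + 1) → ℕ} (ha : ∀ i, 1 ≤ a i) (hmono : Monotone a)
    {q : Fin (n + 1) → MvPolynomial (Fin (n + 1)) K} (hd : ∀ i, (q i).IsHomogeneous (a i))
    (hT : Tall q) (hA : Adm a (bad a q)) {I : Ideal (MvPolynomial (Fin (n + 1)) K)} (hI : Homog I)
    (hq : ∀ i : Fin n, q i.castSucc ∈ I) (d : ℕ) :
    ∃ T, T ⊆ Box.sl (Function.update (fun i => a i - 1) (Fin.last n) (d + 1)) 0 (d + 1) ∧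
      T.card = hilb I (d + 1) ∧ (Box.shadow T).card ≤ hilb I d := by
  obtain ⟨l, hl, hl0, hlQ⟩ := Quint.exists_linear (q := q ∘ Fin.castSucc) (le_refl n)
  obtain ⟨N, hN⟩ : ∃ N, N = d + 2 + ∑ i, a i := ⟨_, rfl⟩
  have hNa : ∀ i, a i ≤ N := fun i => by
    have := single_le_sum (f := a) (fun _ _ => Nat.zero_le _) (mem_univ i); omega
  set q' := Function.update q (Fin.last n) (l ^ N)
  set a' := Function.update a (Fin.last n) N
  have hlN : (l ^ N).IsHomogeneous N := by simpa using hl.pow N
  obtain ⟨hH, heq⟩ := sup_powers hI (g := fun _ : Fin 1 => l ^ N) fun _ => hlN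
  have hne : ∀ i : Fin n, i.castSucc ≠ Fin.last n := fun i => (Fin.castSucc_lt_last i).ne
  have hd' : ∀ i, (q' i).IsHomogeneous (a' i) := Fin.lastCases (by simpa [q', a'] using hlN)
    fun i => by simpa [q', a', hne i] using hd i.castSucc
  have hT' : Tall q' := by
    intro i hi P hP hle
    rcases Nat.lt_or_ge i (n + 1) with hin | hin
    · refine hT i hi P hP (le_trans (Ideal.span_le.2 ?_) hle)
      rintro _ ⟨k, hk, rfl⟩
      have hk' : (k : ℕ) < i := hk
      exact Ideal.subset_span ⟨k, hk, Function.update_of_ne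
        (fun e => by rw [e, Fin.val_last] at hk'; omega) _ _⟩
    · obtain rfl : i = n + 1 := by omega
      have hJP : pre (q ∘ Fin.castSucc) n ≤ P := by
        refine le_trans (Ideal.span_le.2 ?_) hle
        rintro _ ⟨k, -, rfl⟩
        exact Ideal.subset_span ⟨k.castSucc, k.castSucc.isLt,
          Function.update_of_ne (hne k) _ _⟩
      have hlP : l ∈ P := hP.mem_of_pow_mem N (hle (Ideal.subset_span
        ⟨Fin.last n, (Fin.last n).isLt, Function.update_self _ _ _⟩))
      obtain ⟨Q, hQ, hQP⟩ := Ideal.exists_minimalPrimes_le hJP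
      have := hQ.1.1
      have hlt : Q < P := lt_of_le_of_ne hQP fun e => hlQ n le_rfl Q hQ (e ▸ hlP)
      push_cast
      exact (add_le_add (tall_castSucc hT n le_rfl Q hQ.1.1 hQ.1.2) le_rfl).trans
        (Ideal.height_add_one_le_of_lt_of_isPrime hlt)
  have hm' : Monotone a' := fun x y hxy => by
    rcases eq_or_ne y (Fin.last n) with rfl | hy
    · rcases eq_or_ne x (Fin.last n) with rfl | hx
      · exact le_rfl
      · simpa [a', hx] using hNa x
    · have hx : x ≠ Fin.last n := fun e => hy (le_antisymm (Fin.le_last y) (e ▸ hxy))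
      simpa [a', hx, hy] using hmono hxy
  have hsplit : SplitN (a' (Fin.last n)) (q' (Fin.last n)) :=
    ⟨fun _ => l, fun _ => hl, by simp [q', a']⟩
  have hgood := good_peel ih hH (a := a')
    (Fin.lastCases (by simp [a']; omega) fun i => by simpa [a', hne i] using ha _) hm' (q := q')
    (Fin.lastCases (by
        simp only [q', Function.update_self]
        exact Submodule.mem_sup_right (Ideal.subset_span ⟨0, rfl⟩))
      fun i => by
        simp only [q', Function.update_of_ne (hne i)]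
        exact Submodule.mem_sup_left (hq i))
    hd' (tall_finiteColength hd' hT') (by
      have hsub : ∀ i ∈ bad a' q', i ∈ bad a q ∧ i ≠ Fin.last n := fun i hi => by
        have hi' : i ≠ Fin.last n := fun e => by
          subst e; exact (mem_filter.1 hi).2 hsplit
        simp only [bad, mem_filter, mem_univ, true_and, q', a', Function.update_of_ne hi'] at hi ⊢
        exact ⟨hi, hi'⟩
      exact hA.transport (fun i => i.1) (fun x y h => h) (fun i => (hsub _ i.2).1)
        fun i => Function.update_of_ne (hsub _ i.2).2 _ _) hsplit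
  obtain ⟨T, hT1, hTc, hTs⟩ := hgood.2 d
  refine ⟨T, fun x hx => ?_, by rw [hTc, heq _ (by omega)], hTs.trans_eq (heq _ (by omega))⟩
  obtain ⟨h1, h2⟩ := Box.mem_sl.1 (hT1 hx)
  refine Box.mem_sl.2 ⟨fun i => ?_, h2⟩
  rcases eq_or_ne i (Fin.last n) with rfl | hi
  · have := single_le_sum (f := x) (fun _ _ => Nat.zero_le _) (mem_univ (Fin.last n))
    rw [Function.update_self]; omega
  · simpa [a', hi] using h1 i

open Classical in
/-- Below the top degree the box of `a` is enough. -/
theorem good_low (ih : GoodAt K n) {a : Fin (n + 1) → ℕ} (ha : ∀ i, 1 ≤ a i) (hmono : Monotone a)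
    {q : Fin (n + 1) → MvPolynomial (Fin (n + 1)) K} (hd : ∀ i, (q i).IsHomogeneous (a i))
    (hT : Tall q) (hA : Adm a (bad a q)) {I : Ideal (MvPolynomial (Fin (n + 1)) K)} (hI : Homog I)
    (hq : ∀ i, q i ∈ I) {d : ℕ} (hda : d + 1 < a (Fin.last n)) :
    ∃ T, T ⊆ Box.sl (fun i => a i - 1) 0 (d + 1) ∧ T.card = hilb I (d + 1) ∧
      (Box.shadow T).card ≤ hilb I d := by
  obtain ⟨T, hT1, hTc, hTs⟩ := good_low' ih ha hmono hd hT hA hI (fun i => hq _) d
  refine ⟨T, fun x hx => ?_, hTc, hTs⟩
  obtain ⟨h1, h2⟩ := Box.mem_sl.1 (hT1 hx)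
  refine Box.mem_sl.2 ⟨fun i => ?_, h2⟩
  rcases eq_or_ne i (Fin.last n) with rfl | hi
  · have := single_le_sum (f := x) (fun _ _ => Nat.zero_le _) (mem_univ (Fin.last n)); omega
  · simpa [hi] using h1 i

omit [IsAlgClosed K] in
/-- A linear form splits. -/
lemma splitN_one {p : MvPolynomial (Fin n) K} {a : ℕ} (hp : p.IsHomogeneous a) (h : a = 1) :
    SplitN a p := by
  subst h
  exact ⟨fun _ => p, fun _ => hp, by simp⟩

/-- Three forms are either in the middle range, or the last one grows. -/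
lemma reduce_base {a : Fin (n + 1) → ℕ} (h1 : ∀ i, a i ≠ 1) (ha : ∀ i, 1 ≤ a i) (hm : Monotone a)
    {M : ℕ} (hbase : Base a (univ.filter fun i : Fin (n + 1) => (i : ℕ) < M))
    (hgrow : ∀ i ∈ (univ : Finset (Fin (n + 1))), M ≤ (i : ℕ) →
      (∑ j ∈ univ.filter (fun j => j < i), (a j - 1)) ≤ a i) :
    (∃ M : ℕ, (n < M → ((univ : Finset (Fin (n + 1))).card ≤ 2 ∨
        ((univ : Finset (Fin (n + 1))).card ≤ 5 ∧ ∀ i ∈ (univ : Finset (Fin (n + 1))), a i = 2) ∨
        ((univ : Finset (Fin (n + 1))).card ≤ 3 ∧ ∃ i ∈ (univ : Finset (Fin (n + 1))), a i = 2))) ∧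
      ∀ i ∈ (univ : Finset (Fin (n + 1))), M ≤ (i : ℕ) →
        (∑ j ∈ univ.filter (fun j => j < i), (a j - 1)) ≤ a i) ∨
      (n = 2 ∧ a (Fin.last n) + 3 ≤ a 0 + a 1) := by
  classical
  rcases Nat.lt_or_ge n M with hnM | hnM
  swap
  · exact Or.inl ⟨M, fun h => absurd h (not_lt.2 hnM), hgrow⟩
  rw [filter_true_of_mem fun i _ => lt_of_le_of_lt (Nat.lt_succ_iff.1 i.isLt) hnM] at hbase
  rcases hbase with hc | h
  swap
  · exact Or.inl ⟨M, fun _ => Or.inr (Or.inl h), hgrow⟩
  rw [card_univ, Fintype.card_fin] at hc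
  rcases Nat.lt_or_ge (n + 1) 3 with hlt | hge
  · exact Or.inl ⟨M, fun _ => Or.inl (by simp; omega), hgrow⟩
  obtain rfl : n = 2 := by omega
  have h01 : a 0 ≤ a 1 := hm (by decide)
  by_cases hbig : a 2 + 3 ≤ a 0 + a 1
  · exact Or.inr ⟨rfl, hbig⟩
  refine Or.inl ⟨2, fun h => absurd h (lt_irrefl 2), fun i _ hi => ?_⟩
  obtain rfl : i = 2 := Fin.ext (by have := i.isLt; simp only [Fin.val_two]; omega)
  rw [show univ.filter (fun j : Fin 3 => j < 2) = {0, 1} by decide, sum_pair (by decide)]
  have h10 := h1 0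
  have h00 := ha 0
  generalize a 0 = x, a 1 = y, a 2 = z at hbig h01 h10 h00 ⊢
  omega

open Classical in
/-- Three forms of degrees `a ≤ b ≤ c` with `c + 3 ≤ a + b`. -/
theorem good_tern (ih : GoodAt K 2) {a : Fin 3 → ℕ} (ha : ∀ i, 1 ≤ a i) (hm : Monotone a)
    {q : Fin 3 → MvPolynomial (Fin 3) K} {I : Ideal (MvPolynomial (Fin 3) K)} (hq : ∀ i, q i ∈ I)
    (hd : ∀ i, (q i).IsHomogeneous (a i)) (hfc : FiniteColength q) (hI : Homog I)
    (hA : Adm a (bad a q)) (hbig : a (Fin.last 2) + 3 ≤ a 0 + a 1) :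
    Box.Good (fun i => a i - 1) (hilb I) := by
  change a 2 + 3 ≤ a 0 + a 1 at hbig
  have hT : Tall q := by
    intro i hi P hP hle
    have h := card_le_height_of_subfamily ha hd hfc (univ.filter fun j : Fin 3 => (j : ℕ) < i)
      P fun j hj => hle (Ideal.subset_span ⟨j, (mem_filter.1 hj).2, rfl⟩)
    rwa [Fin.card_filter_val_lt, min_eq_right hi] at h
  refine ⟨hilb_zero_le I, fun d => ?_⟩
  rcases Nat.lt_or_ge (d + 1) (a 2) with hlo | hd2
  · exact good_low ih ha hm hd hT hA hI hq hlo
  rcases Nat.lt_or_ge (∑ i, (a i - 1)) (d + 1) with hds | hds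
  · refine ⟨∅, empty_subset _, ?_, by simp [Box.shadow]⟩
    have hF := hilb_all ha hd (tall_regular _ _ q le_rfl a ha hd hT) (d + 1)
    have hFI : pre q 3 ≤ I := by
      rw [pre_all]; exact Ideal.span_le.2 (by rintro _ ⟨i, rfl⟩; exact hq i)
    have h0 : Box.sl (fun i => a i - 1) 0 (d + 1) = ∅ := eq_empty_of_forall_notMem fun z hz => by
      obtain ⟨h1, h2⟩ := Box.mem_sl.1 hz
      have := sum_le_sum (s := univ) fun i _ => h1 i
      omega
    rw [h0, card_empty] at hF
    have := hilb_anti hFI (d + 1)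
    rw [card_empty]
    omega
  obtain ⟨e, he⟩ : ∃ e, d + (e + 1) = ∑ i, (a i - 1) := ⟨∑ i, (a i - 1) - (d + 1), by omega⟩
  rcases Nat.lt_or_ge (e + 1) (a 2) with hlo | he2
  swap
  · exact Chain.chain_step ha hm hd hT hI hq hd2 he2 he
  refine linked_step ha hd hT hI hq he fun J hJ hqJ => ?_
  obtain ⟨T, h1, h2, h3'⟩ := good_low ih ha hm hd hT hA hJ hqJ (d := e) hlo
  refine ⟨T, h1, h2, h3', ?_⟩
  rcases e with _ | e
  · exact (hilb_zero_le J).trans
      (card_pos.2 ⟨0, Box.mem_sl.2 ⟨fun _ => Nat.zero_le _, by simp⟩⟩)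
  · obtain ⟨U, hU, hUc, -⟩ := good_low ih ha hm hd hT hA hJ hqJ (d := e)
      (show e + 1 < a 2 by omega)
    exact hUc ▸ card_le_card hU

open Classical in
/-- EGH in numerical form for admissible exceptional patterns. -/
theorem good_growth : ∀ n, GoodAt K n := by
  intro n
  induction n with
  | zero =>
    intro I hI a ha hm q hq hd hfc _
    exact Deg.good_hilb 0 I hI a ha hm q hq hd hfc (Or.inl ((card_le_univ _).trans (by simp)))
  | succ n ih =>
    intro I hI a ha hm q hq hd hfc hA
    by_cases hs : ∃ j, SplitN (a j) (q j)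
    · obtain ⟨j, hj⟩ := hs
      exact good_peel ih hI ha hm hq hd hfc hA hj
    simp only [not_exists] at hs
    have hall : bad a q = univ := filter_true_of_mem fun i _ => hs i
    obtain ⟨M, hbase, hgrow⟩ := id hA
    rw [hall] at hbase hgrow
    rcases reduce_base (fun i h1 => hs i (splitN_one (hd i) h1)) ha hm hbase hgrow with
      ⟨M, hbase, hgrow⟩ | ⟨rfl, hbig⟩
    swap
    · exact good_tern ih ha hm hq hd hfc hI hA hbig
    rcases Nat.lt_or_ge n M with hnM | hnM
    · exact good_hilb5 hI ha hm hq hd hfc (by rw [FewBad5, hall]; exact hbase hnM)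
    have htop := hgrow (Fin.last n) (mem_univ _) (by simpa using hnM)
    have hT : Tall q := by
      intro i hi P hP hle
      have h := card_le_height_of_subfamily ha hd hfc (univ.filter fun j : Fin (n + 1) => (j : ℕ) < i)
        P fun j hj => hle (Ideal.subset_span ⟨j, (mem_filter.1 hj).2, rfl⟩)
      rwa [Fin.card_filter_val_lt, min_eq_right hi] at h
    have hs' : (∑ i, (a i - 1)) = (∑ j ∈ univ.filter (fun j => j < Fin.last n), (a j - 1))
        + (a (Fin.last n) - 1) := by
      rw [show univ.filter (fun j => j < Fin.last n) = univ.erase (Fin.last n) by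
        ext j; simp [lt_iff_le_and_ne, Fin.le_last]]
      exact (sum_erase_add _ _ (mem_univ _)).symm
    refine ⟨hilb_zero_le I, fun d => ?_⟩
    rcases Nat.lt_or_ge (d + 1) (a (Fin.last n)) with hda | hda
    · exact good_low ih ha hm hd hT hA hI hq hda
    rcases Nat.lt_or_ge (∑ i, (a i - 1)) (d + 1) with hds | hds
    · refine ⟨∅, empty_subset _, ?_, by simp [Box.shadow]⟩
      have hF := hilb_all ha hd (tall_regular _ _ q le_rfl a ha hd hT) (d + 1)
      have hFI : pre q (n + 1) ≤ I := by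
        rw [pre_all]; exact Ideal.span_le.2 (by rintro _ ⟨i, rfl⟩; exact hq i)
      have h0 : Box.sl (fun i => a i - 1) 0 (d + 1) = ∅ := eq_empty_of_forall_notMem fun z hz => by
        obtain ⟨h1, h2⟩ := Box.mem_sl.1 hz
        have := sum_le_sum (s := univ) fun i _ => h1 i
        omega
      rw [h0, card_empty] at hF
      have := hilb_anti hFI (d + 1)
      rw [card_empty]
      omega
    by_cases heq : d + 1 = a (Fin.last n) ∧
        a (Fin.last n) = ∑ j ∈ univ.filter (fun j => j < Fin.last n), (a j - 1)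
    · have hsum : ∑ i : Fin n, (a i.castSucc - 1) = a (Fin.last n) := by
        rw [heq.2, show univ.filter (fun j => j < Fin.last n) = univ.erase (Fin.last n) by
          ext j; simp [lt_iff_le_and_ne, Fin.le_last]]
        have h1 := sum_erase_add univ (fun i => a i - 1) (mem_univ (Fin.last n))
        rw [Fin.sum_univ_castSucc (f := fun i => a i - 1)] at h1
        omega
      -- a top degree one would be linear, hence split
      obtain ⟨A, hA2⟩ : ∃ A, a (Fin.last n) = A + 2 := ⟨a (Fin.last n) - 2, by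
        have h1 := ha (Fin.last n)
        by_contra hcon
        have ha1 : a (Fin.last n) = 1 := by omega
        refine hs (Fin.last n) ⟨fun _ => q (Fin.last n),
          fun _ => (show (q (Fin.last n)).IsHomogeneous 1 from by have h := hd (Fin.last n); rwa [ha1] at h), ?_⟩
        rw [Finset.prod_const, Finset.card_univ, Fintype.card_fin, ha1, pow_one]⟩
      obtain rfl : d = A + 1 := by omega
      exact equal_step ha hm hd hT hA2 (hsum.trans hA2)
        (fun J hJ hJq e => good_low' ih ha hm hd hT hA hJ hJq e) hI hq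
    obtain ⟨e, he⟩ : ∃ e, d + (e + 1) = ∑ i, (a i - 1) := ⟨∑ i, (a i - 1) - (d + 1), by omega⟩
    refine linked_step ha hd hT hI hq he fun J hJ hqJ => ?_
    obtain ⟨T, h1, h2, h3⟩ := good_low ih ha hm hd hT hA hJ hqJ (d := e) (by omega)
    refine ⟨T, h1, h2, h3, ?_⟩
    rcases e with _ | e
    · exact (hilb_zero_le J).trans
        (card_pos.2 ⟨0, Box.mem_sl.2 ⟨fun _ => Nat.zero_le _, by simp⟩⟩)
    · obtain ⟨U, hU, hUc, -⟩ := good_low ih ha hm hd hT hA hJ hqJ (d := e) (by omega)
      exact hUc ▸ card_le_card hU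

end Vale.Agent.P200.Growth
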